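import Crest.Agent.H4.ZL.Z1

/-! Degeneration of locally nilpotent derivations along a Rees algebra. -/

namespace Crest.Agent.H4.AF

open LaurentPolynomial

/-- locally nilpotent -/
def LN {A : Type} [CommRing A] [Algebra ℂ A] (D : Derivation ℂ A A) : Prop :=
  ∀ a, ∃ n : ℕ, D^[n] a = 0

section Lap
variable {A : Type} [CommRing A] [Algebra ℂ A]

noncomputable def lapL (D : Derivation ℂ A A) : A[T;T⁻¹] →ₗ[ℂ] A[T;T⁻¹] where
  toFun := AddMonoidAlgebra.map (D.toLinearMap.toAddMonoidHom)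
  map_add' a b := by ext; simp
  map_smul' c a := by ext; simp

theorem lapL_CT (D : Derivation ℂ A A) (a : A) (n : ℤ) : lapL D (C a * T n) = C (D a) * T n := by
  rw [← single_eq_C_mul_T, ← single_eq_C_mul_T]
  exact AddMonoidAlgebra.map_single _ _ _

noncomputable def lap (D : Derivation ℂ A A) : Derivation ℂ A[T;T⁻¹] A[T;T⁻¹] :=
  Derivation.mk' (lapL D) fun a b => by
    induction a using LaurentPolynomial.induction_on' with
    | add p q hp hq => simp only [add_mul, map_add, hp, hq, smul_eq_mul]; ring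
    | C_mul_T n a =>
      induction b using LaurentPolynomial.induction_on' with
      | add p q hp hq => simp only [mul_add, map_add, hp, hq, smul_eq_mul]; ring
      | C_mul_T m b =>
        have : C a * T n * (C b * T m) = C (a * b) * T (n + m) := by rw [map_mul, T_add]; ring
        rw [this, lapL_CT, lapL_CT, lapL_CT, D.leibniz]
        simp only [smul_eq_mul, map_add, map_mul, T_add]; ring

theorem lap_CT (D : Derivation ℂ A A) (a : A) (n : ℤ) : lap D (C a * T n) = C (D a) * T n :=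
  lapL_CT D a n

theorem lap_C (D : Derivation ℂ A A) (a : A) : lap D (C a) = C (D a) := by
  simpa using lap_CT D a 0

theorem lap_T (D : Derivation ℂ A A) (n : ℤ) : lap D (T n) = 0 := by
  simpa using lap_CT D 1 n

theorem lap_T_mul (D : Derivation ℂ A A) (n : ℤ) (y : A[T;T⁻¹]) :
    lap D (T n * y) = T n * lap D y := by
  rw [Derivation.leibniz, lap_T]; simp

theorem iter_add {A : Type} [CommRing A] [Algebra ℂ A] (D : Derivation ℂ A A) (n : ℕ) (a b : A) :
    D^[n] (a + b) = D^[n] a + D^[n] b := by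
  induction n generalizing a b with
  | zero => rfl
  | succ n ih => simp [ih]

theorem iter_zero {A : Type} [CommRing A] [Algebra ℂ A] (D : Derivation ℂ A A) (n : ℕ) :
    D^[n] 0 = 0 := Function.iterate_fixed (map_zero D) n

theorem iter_mono {A : Type} [CommRing A] [Algebra ℂ A] (D : Derivation ℂ A A) {n m : ℕ} {a : A}
    (h : D^[n] a = 0) (hm : n ≤ m) : D^[m] a = 0 := by
  obtain ⟨k, rfl⟩ := Nat.exists_eq_add_of_le' hm
  rw [Function.iterate_add_apply, h, iter_zero]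

theorem lap_LN {D : Derivation ℂ A A} (h : LN D) : LN (lap D) := by
  intro y
  induction y using LaurentPolynomial.induction_on' with
  | add p q hp hq =>
    obtain ⟨n, hn⟩ := hp
    obtain ⟨m, hm⟩ := hq
    exact ⟨max n m, by
      rw [iter_add, iter_mono _ hn (le_max_left _ _), iter_mono _ hm (le_max_right _ _), add_zero]⟩
  | C_mul_T n a =>
    obtain ⟨k, hk⟩ := h a
    have : ∀ k a, (lap D)^[k] (C a * T n) = C (D^[k] a) * T n := by
      intro k
      induction k with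
      | zero => intro a; rfl
      | succ k ih => intro a; rw [Function.iterate_succ_apply, lap_CT, ih]; rfl
    exact ⟨k, by rw [this, hk]; simp⟩

theorem C_inj : Function.Injective (C : A → A[T;T⁻¹]) := fun a b h => by
  have := congrArg (fun y : A[T;T⁻¹] => y.coeff 0) h
  simpa using this

/-- the scaling endomorphism -/
noncomputable def sL (σ : A →+* A) (c : ℂˣ) : A[T;T⁻¹] →+* A[T;T⁻¹] :=
  eval₂ (C.comp σ) (Units.map (algebraMap ℂ A[T;T⁻¹] : ℂ →* _) c * (isUnit_T 1).unit)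

theorem sL_C (σ : A →+* A) (c : ℂˣ) (a : A) : sL σ c (C a) = C (σ a) := by simp [sL]

theorem unit_T_zpow (n : ℤ) : (((isUnit_T (R := A) 1).unit ^ n : (A[T;T⁻¹])ˣ) : A[T;T⁻¹]) = T n := by
  induction n using Int.induction_on with
  | zero => simp
  | succ n ih => rw [zpow_add_one, Units.val_mul, ih, T_add]; rfl
  | pred n ih =>
    rw [zpow_sub_one, Units.val_mul, ih, T_sub]
    congr 1
    exact Units.inv_eq_of_mul_eq_one_right (by
      rw [IsUnit.unit_spec, ← T_add]; simp)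

theorem sL_T (σ : A →+* A) (c : ℂˣ) (n : ℤ) :
    sL σ c (T n) = algebraMap ℂ _ ((c ^ n : ℂˣ) : ℂ) * T n := by
  rw [sL, eval₂_T, mul_zpow, Units.val_mul, unit_T_zpow, ← map_zpow]; rfl

theorem lap_sL {D : Derivation ℂ A A} {σ : A →+* A} (c : ℂˣ) {ε : ℂ}
    (h : ∀ a, D (σ a) = ε • σ (D a)) (y : A[T;T⁻¹]) : lap D (sL σ c y) = ε • sL σ c (lap D y) := by
  induction y using LaurentPolynomial.induction_on' with
  | add p q hp hq => simp only [map_add, hp, hq, smul_add]
  | C_mul_T n a =>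
    rw [lap_CT, map_mul (sL σ c), map_mul (sL σ c), sL_C, sL_C, sL_T, mul_left_comm, ← Algebra.smul_def,
      Derivation.map_smul, lap_CT, h, Algebra.smul_def, Algebra.smul_def, Algebra.smul_def,
      map_mul]
    have : (C (algebraMap ℂ A ε) : A[T;T⁻¹]) = algebraMap ℂ _ ε := rfl
    rw [this]; ring

end Lap

/-- Rees data -/
structure Rees (A R G : Type) [CommRing A] [Algebra ℂ A] [CommRing R] [Algebra ℂ R]
    [CommRing G] [Algebra ℂ G] where
  θ : R →ₐ[ℂ] A[T;T⁻¹]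
  π : R →ₐ[ℂ] G
  t : R
  θ_inj : Function.Injective θ
  θ_t : θ t = T 1
  loc : ∀ a : A, ∃ (N : ℕ) (b : R), θ b = T N * C a
  π_surj : Function.Surjective π
  ker : ∀ b, π b = 0 ↔ t ∣ b

namespace Rees
variable {A R G : Type} [CommRing A] [Algebra ℂ A] [CommRing R] [Algebra ℂ R]
    [CommRing G] [Algebra ℂ G] (S : Rees A R G)

theorem θ_pow (n : ℕ) : S.θ (S.t ^ n) = T n := by rw [map_pow, S.θ_t, T_pow, mul_one]

theorem up {y : A[T;T⁻¹]} {n m : ℤ} (h : ∃ b, S.θ b = T n * y) (hm : n ≤ m) :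
    ∃ b, S.θ b = T m * y := by
  obtain ⟨b, hb⟩ := h
  obtain ⟨k, rfl⟩ := Int.le.dest hm
  exact ⟨S.t ^ k * b, by rw [map_mul, θ_pow, hb, T_add]; ring⟩

theorem loc' (y : A[T;T⁻¹]) : ∃ (n : ℤ) (b : R), S.θ b = T n * y := by
  induction y using LaurentPolynomial.induction_on' with
  | add p q hp hq =>
    obtain ⟨n, hn⟩ := hp
    obtain ⟨m, hm⟩ := hq
    obtain ⟨b, hb⟩ := S.up hn (le_max_left n m)
    obtain ⟨b', hb'⟩ := S.up hm (le_max_right n m)
    exact ⟨_, b + b', by rw [map_add, hb, hb', mul_add]⟩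
  | C_mul_T n a =>
    obtain ⟨N, b, hb⟩ := S.loc a
    exact ⟨N - n, b, by rw [hb, mul_left_comm, ← T_add, sub_add_cancel, mul_comm]⟩

theorem elem [IsDomain A] [IsNoetherianRing R] [Nontrivial G] {y : A[T;T⁻¹]} (hy : y ≠ 0) :
    ∃ (n : ℤ) (b : R), S.θ b = T n * y ∧ S.π b ≠ 0 := by
  haveI : IsDomain R := S.θ_inj.isDomain S.θ.toRingHom
  obtain ⟨n, b, hb⟩ := S.loc' y
  have hb0 : b ≠ 0 := fun h => by
    rw [h, map_zero, eq_comm, (isUnit_T n).mul_right_eq_zero] at hb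
    exact hy hb
  obtain ⟨k, b', hk, rfl⟩ := WfDvdMonoid.max_power_factor' (x := S.t) hb0 fun hu =>
    (hu.map S.π).ne_zero ((S.ker _).2 dvd_rfl)
  refine ⟨n - k, b', ?_, fun h => hk ((S.ker _).1 h)⟩
  rw [map_mul, θ_pow] at hb
  rw [sub_eq_neg_add, T_add, mul_assoc, ← hb, ← mul_assoc, ← T_add]; simp

theorem degen [IsDomain A] [IsNoetherianRing R] [Algebra.FiniteType ℂ R] [Nontrivial G]
    {D : Derivation ℂ A A} (hD : D ≠ 0) (hL : LN D) :
    ∃ (m : ℤ) (E : Derivation ℂ G G), E ≠ 0 ∧ LN E ∧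
      ∀ b, ∃ b', S.θ b' = T m * lap D (S.θ b) ∧ E (S.π b) = S.π b' := by
  classical
  have hne : ∃ m : ℤ, ∀ b, ∃ b', S.θ b' = T m * lap D (S.θ b) := by
    obtain ⟨s, hs⟩ := (inferInstance : Algebra.FiniteType ℂ R).out
    choose n hn using fun b : R => S.loc' (lap D (S.θ b))
    obtain ⟨m, hm⟩ := (s.image n).finite_toSet.bddAbove
    refine ⟨m, fun b => ?_⟩
    have : b ∈ Algebra.adjoin ℂ (s : Set R) := hs ▸ Algebra.mem_top
    induction this using Algebra.adjoin_induction with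
    | mem x hx => exact S.up (hn x) (hm (Finset.mem_coe.2 (Finset.mem_image_of_mem _ hx)))
    | algebraMap r => exact ⟨0, by rw [AlgHom.commutes, Derivation.map_algebraMap]; simp⟩
    | add x y _ _ hx hy =>
      obtain ⟨a, ha⟩ := hx
      obtain ⟨b, hb⟩ := hy
      exact ⟨a + b, by rw [map_add, map_add, map_add, ha, hb, mul_add]⟩
    | mul x y _ _ hx hy =>
      obtain ⟨a, ha⟩ := hx
      obtain ⟨b, hb⟩ := hy
      exact ⟨x * b + y * a, by
        rw [map_add, map_mul, map_mul, map_mul, ha, hb, Derivation.leibniz]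
        simp only [smul_eq_mul]; ring⟩
  have hbd : ∃ n : ℤ, ∀ m, (∀ b, ∃ b', S.θ b' = T m * lap D (S.θ b)) → n ≤ m := by
    obtain ⟨a, ha⟩ : ∃ a, D a ≠ 0 := by
      by_contra h
      push Not at h
      exact hD (Derivation.ext h)
    obtain ⟨N, b, hb⟩ := S.loc a
    have hy : lap D (S.θ b) ≠ 0 := by
      rw [hb, lap_T_mul, lap_C, Ne, (isUnit_T _).mul_right_eq_zero]
      exact fun h => ha (C_inj (by rw [h, map_zero]))
    obtain ⟨n, b₁, h1, h2⟩ := S.elem hy
    refine ⟨n, fun m hm => ?_⟩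
    by_contra hlt
    obtain ⟨b', hb'⟩ := S.up (hm b) (show m ≤ n - 1 by omega)
    apply h2
    rw [S.ker]
    refine ⟨b', S.θ_inj ?_⟩
    rw [map_mul, hb', h1, S.θ_t, ← mul_assoc, ← T_add]; simp
  obtain ⟨m, hm, hmin⟩ := Int.exists_least_of_bdd hbd hne
  choose f hf using hm
  let DR : Derivation ℂ R R := Derivation.mk'
    { toFun := f
      map_add' := fun a b => S.θ_inj (by simp only [hf, map_add, mul_add])
      map_smul' := fun c a => S.θ_inj (by simp [hf]) }
    fun a b => S.θ_inj (by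
      simp only [LinearMap.coe_mk, AddHom.coe_mk, hf, map_mul, map_add, Derivation.leibniz,
        smul_eq_mul]; ring)
  have hDR : ∀ b, DR b = f b := fun _ => rfl
  have hk : ∀ b, S.π b = 0 → S.π (DR b) = 0 := fun b hb => by
    obtain ⟨c, rfl⟩ := (S.ker _).1 hb
    rw [S.ker]
    exact ⟨f c, S.θ_inj (by rw [hDR, hf, map_mul S.θ, map_mul S.θ, hf, S.θ_t, lap_T_mul]; ring)⟩
  have hE : ∀ b, Derivation.liftOfSurjective S.π_surj hk (S.π b) = S.π (f b) := fun b =>
    Derivation.liftOfSurjective_apply S.π_surj hk b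
  refine ⟨m, Derivation.liftOfSurjective S.π_surj hk, fun h0 => ?_, fun g => ?_,
    fun b => ⟨f b, hf b, hE b⟩⟩
  · have := hmin (m - 1) fun b => by
      have h1 := hE b
      rw [h0, Derivation.zero_apply, eq_comm, S.ker] at h1
      obtain ⟨c, hc⟩ := h1
      refine ⟨c, ?_⟩
      have h2 := hf b
      rw [hc, map_mul, S.θ_t] at h2
      rw [sub_eq_neg_add, T_add, mul_assoc, ← h2, ← mul_assoc, ← T_add]; simp
    omega
  · obtain ⟨b, rfl⟩ := S.π_surj g
    obtain ⟨n, hn⟩ := lap_LN hL (S.θ b)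
    have h1 : ∀ k b, S.θ (f^[k] b) = T (k * m) * (lap D)^[k] (S.θ b) := by
      intro k
      induction k with
      | zero => intro b; simp
      | succ k ih =>
        intro b
        rw [Function.iterate_succ_apply', Function.iterate_succ_apply', hf, ih, lap_T_mul,
          ← mul_assoc, ← T_add]
        congr 2; push_cast; ring
    have h2 : ∀ k b, (Derivation.liftOfSurjective S.π_surj hk)^[k] (S.π b) = S.π (f^[k] b) := by
      intro k
      induction k with
      | zero => intro b; rfl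
      | succ k ih => intro b; rw [Function.iterate_succ_apply, hE, ih]; rfl
    refine ⟨n, ?_⟩
    rw [h2, S.θ_inj (a₁ := f^[n] b) (a₂ := 0) (by rw [h1, hn]; simp), map_zero]

/-- compatibility of scalings -/
def Compat (σ : A →+* A) (c : ℂˣ) (τ : G →+* G) : Prop :=
  ∀ b, ∃ b', S.θ b' = sL σ c (S.θ b) ∧ S.π b' = τ (S.π b)

/-- The packaged degeneration statement. -/
theorem degen' [IsDomain A] [IsNoetherianRing R] [Algebra.FiniteType ℂ R] [Nontrivial G]
    {D : Derivation ℂ A A} (hD : D ≠ 0) (hL : LN D) :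
    ∃ (m : ℤ) (E : Derivation ℂ G G), E ≠ 0 ∧ LN E ∧
      (∀ b, lap D (S.θ b) = 0 → E (S.π b) = 0) ∧
      (∀ σ c τ (ε : ℂ), S.Compat σ c τ → (∀ a, D (σ a) = ε • σ (D a)) →
        ∀ g, E (τ g) = (ε * (c ^ (-m) : ℂˣ)) • τ (E g)) := by
  obtain ⟨m, E, h1, h2, h3⟩ := S.degen hD hL
  refine ⟨m, E, h1, h2, fun b hb => ?_, fun σ c τ ε hc hσ g => ?_⟩
  · obtain ⟨b', e1, e2⟩ := h3 b
    rw [e2, S.θ_inj (a₁ := b') (a₂ := 0) (by rw [e1, hb]; simp), map_zero]
  · obtain ⟨b, rfl⟩ := S.π_surj g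
    obtain ⟨b₁, e1, e1'⟩ := hc b
    obtain ⟨b₂, e2, e2'⟩ := h3 b₁
    obtain ⟨b₃, e3, e3'⟩ := h3 b
    obtain ⟨b₄, e4, e4'⟩ := hc b₃
    rw [← e1', e2', e3', ← e4', ← map_smul]
    congr 1
    apply S.θ_inj
    rw [e2, e1, lap_sL c hσ, map_smul, e4, e3, map_mul, sL_T, Algebra.smul_def, Algebra.smul_def,
      map_mul, zpow_neg]
    have : algebraMap ℂ A[T;T⁻¹] ((c ^ m)⁻¹ : ℂˣ) * algebraMap ℂ A[T;T⁻¹] (c ^ m : ℂˣ) = 1 := by
      rw [← map_mul, Units.inv_mul, map_one]
    linear_combination (-(algebraMap ℂ A[T;T⁻¹] ε * T m * sL σ c (lap D (S.θ b)))) * this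

theorem elem' [IsDomain A] [IsNoetherianRing R] [Nontrivial G] {a : A} (ha : a ≠ 0) :
    ∃ (n : ℤ) (b : R), S.θ b = T n * C a ∧ S.π b ≠ 0 ∧
      ∀ σ c τ (κ : ℂ), S.Compat σ c τ → σ a = κ • a →
        τ (S.π b) = (κ * (c ^ n : ℂˣ)) • S.π b := by
  obtain ⟨n, b, h1, h2⟩ := S.elem (y := C a) fun h => ha (C_inj (by rw [h, map_zero]))
  refine ⟨n, b, h1, h2, fun σ c τ κ hc hσ => ?_⟩
  obtain ⟨b', e, e'⟩ := hc b
  rw [← e', ← map_smul]
  congr 1
  apply S.θ_inj
  rw [e, map_smul, h1, map_mul, sL_T, sL_C, hσ, Algebra.smul_def, Algebra.smul_def, map_mul,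
    map_mul]
  have : (C (algebraMap ℂ A κ) : A[T;T⁻¹]) = algebraMap ℂ _ κ := rfl
  rw [this]; ring

end Rees

end Crest.Agent.H4.AF
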