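import Crest.Agent.H4.AF.A1

/-! The rings of the construction and their Rees algebras. -/

namespace Crest.Agent.H4.AF

open LaurentPolynomial
open Polynomial hiding C

section Formulas
variable {T : Type*} [CommRing T]

/-- variables: `0 = u, 1 = p, 2 = s, 3 = x, 4 = h, 5 = v` -/
def Ff (f : Fin 6 → T) : T := 4 * f 2 ^ 2 * f 4 + (1 + 2 * f 2 * f 3) * f 5
def Jf (f : Fin 6 → T) : T := -(1 - 2 * f 2 * f 3) * f 4 + f 3 ^ 2 * f 5
def r1 (d b : ℕ) (ε : ℤ) (m : T) (f : Fin 6 → T) : T :=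
  m * f 3 - f 2 ^ 2 - ε * f 0 ^ b - f 1 ^ (d + 1) * Ff f
def r2 (d : ℕ) (l : T) (f : Fin 6 → T) : T := f 4 - f 1 ^ (d + 1) * Jf f ^ 2 - l * f 1 ^ d * f 0

variable {T' F : Type*} [CommRing T'] [FunLike F T T'] [RingHomClass F T T']

theorem map_Ff (φ : F) (f : Fin 6 → T) : φ (Ff f) = Ff fun i => φ (f i) := by
  simp [Ff, map_ofNat]
theorem map_Jf (φ : F) (f : Fin 6 → T) : φ (Jf f) = Jf fun i => φ (f i) := by
  simp [Jf, map_ofNat]
theorem map_r1 (φ : F) (d b : ℕ) (ε : ℤ) (m : T) (f : Fin 6 → T) :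
    φ (r1 d b ε m f) = r1 d b ε (φ m) fun i => φ (f i) := by
  simp [r1, map_Ff]
theorem map_r2 (φ : F) (d : ℕ) (l : T) (f : Fin 6 → T) :
    φ (r2 d l f) = r2 d (φ l) fun i => φ (f i) := by
  simp [r2, map_Jf]

theorem nzd_core {π g q₁ q₂ a₁ a₂ c : T} (hπ : ∀ y, π * y = 0 → y = 0)
    (h : π * g = q₁ * a₁ + q₂ * a₂) (h₁ : π ∣ q₁ + a₂ * c) (h₂ : π ∣ q₂ - a₁ * c) :
    g ∈ Ideal.span {a₁, a₂} := by
  obtain ⟨y₁, e₁⟩ := h₁
  obtain ⟨y₂, e₂⟩ := h₂
  rw [Ideal.mem_span_pair]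
  refine ⟨y₁, y₂, (sub_eq_zero.1 (hπ _ ?_)).symm⟩
  linear_combination h + a₁ * e₁ + a₂ * e₂

end Formulas

abbrev P6 := MvPolynomial (Fin 6) ℂ

/-- `a₁` is a non-zero-divisor modulo `a₂` -/
def Reg {T : Type*} [CommRing T] (a₁ a₂ : T) : Prop := a₂ ≠ 0 ∧ ∀ q c, q * a₁ = a₂ * c → a₂ ∣ q

theorem reg_of {ε : ℤ} (hε : ε * ε = 1) (b : ℕ) (hb : b ≠ 0) (a₀ a₂ : MvPolynomial (Fin 5) ℂ)
    (h : a₂ ≠ 0) : Reg (MvPolynomial.rename Fin.succ a₀ - (ε : P6) * MvPolynomial.X 0 ^ b : P6)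
      (MvPolynomial.rename Fin.succ a₂) := by
  refine ⟨fun h0 => h (MvPolynomial.rename_injective _ (Fin.succ_injective _) (by simpa using h0)),
    fun q c hq => ?_⟩
  have e := congrArg (MvPolynomial.finSuccEquiv ℂ 5) hq
  have hr : ∀ a, MvPolynomial.finSuccEquiv ℂ 5 (MvPolynomial.rename Fin.succ a) =
      Polynomial.C a := fun a => by
    induction a using MvPolynomial.induction_on with
    | C a => simp [MvPolynomial.finSuccEquiv_apply]
    | add p q hp hq => simp [hp, hq]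
    | mul_X p n hp => simp [hp, MvPolynomial.finSuccEquiv_X_succ]
  rw [map_mul, map_mul, map_sub, hr, hr, map_mul, map_pow, MvPolynomial.finSuccEquiv_X_zero,
    map_intCast] at e
  have h2 : Polynomial.C a₂ ∣ MvPolynomial.finSuccEquiv ℂ 5 q := by
    let φ := Ideal.Quotient.mk (Ideal.span {a₂})
    have hm : (X ^ b - Polynomial.C (φ (ε * a₀))).Monic := monic_X_pow_sub_C _ hb
    have e2 := congrArg (Polynomial.map φ) e
    have h0 : φ a₂ = 0 := Ideal.Quotient.eq_zero_iff_mem.2 (Ideal.mem_span_singleton_self _)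
    simp only [Polynomial.map_mul, Polynomial.map_sub, map_C, Polynomial.map_pow, map_X,
      Polynomial.map_intCast, h0, map_zero, zero_mul] at e2
    have e3 : (MvPolynomial.finSuccEquiv ℂ 5 q).map φ * (X ^ b - Polynomial.C (φ (ε * a₀))) = 0 := by
      have h1 : ((ε : ℤ) : (MvPolynomial (Fin 5) ℂ ⧸ Ideal.span {a₂})[X]) * ε = 1 := by
        exact_mod_cast congrArg (Int.cast (R := (MvPolynomial (Fin 5) ℂ ⧸ Ideal.span {a₂})[X])) hε
      simp only [map_mul, map_intCast]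
      linear_combination (-ε) * e2 - (MvPolynomial.finSuccEquiv ℂ 5 q).map φ * X ^ b * h1
    rw [hm.mul_left_eq_zero_iff] at e3
    rw [C_dvd_iff_dvd_coeff]
    intro i
    have := congrArg (fun p => p.coeff i) e3
    simpa [φ, Ideal.Quotient.eq_zero_iff_mem, Ideal.mem_span_singleton] using this
  obtain ⟨y, hy⟩ := h2
  exact ⟨(MvPolynomial.finSuccEquiv ℂ 5).symm y, (MvPolynomial.finSuccEquiv ℂ 5).injective (by
    rw [map_mul, hr, AlgEquiv.apply_symm_apply, hy])⟩

theorem nzd_var {a₁ a₂ : P6} (i : Fin 6)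
    (h : Reg (MvPolynomial.aeval (Function.update MvPolynomial.X i 0) a₁ : P6)
      (MvPolynomial.aeval (Function.update MvPolynomial.X i 0) a₂)) {g : P6}
    (hg : MvPolynomial.X i * g ∈ Ideal.span {a₁, a₂}) : g ∈ Ideal.span {a₁, a₂} := by
  set e : P6 →ₐ[ℂ] P6 := MvPolynomial.aeval (Function.update MvPolynomial.X i 0) with he
  have h1 : ∀ g, MvPolynomial.X i ∣ g - e g := fun g => by
    induction g using MvPolynomial.induction_on with
    | C a => simp [he]
    | add p q hp hq => rw [map_add, add_sub_add_comm]; exact dvd_add hp hq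
    | mul_X p n hp =>
      have : p * MvPolynomial.X n - e (p * MvPolynomial.X n) = (p - e p) * MvPolynomial.X n +
          e p * (MvPolynomial.X n - e (MvPolynomial.X n)) := by rw [map_mul]; ring
      rw [this]
      refine dvd_add (hp.mul_right _) (Dvd.dvd.mul_left ?_ _)
      by_cases hn : n = i
      · subst hn; simp [he]
      · simp [he, hn]
  have h0 : e (MvPolynomial.X i) = 0 := by simp [he]
  have h2 : ∀ g, e (e g) = e g := fun g => by
    obtain ⟨y, hy⟩ := h1 g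
    have := congrArg e hy
    rw [map_sub, map_mul, h0, zero_mul, sub_eq_zero] at this
    exact this.symm
  have h3 : ∀ g, e g = 0 → MvPolynomial.X i ∣ g := fun g hg => by simpa [hg] using h1 g
  obtain ⟨q₁, q₂, hq⟩ := Ideal.mem_span_pair.1 hg
  have e1 := congrArg e hq
  rw [map_add, map_mul, map_mul, map_mul, h0, zero_mul] at e1
  obtain ⟨c, hc⟩ := h.2 (e q₁) (-e q₂) (by linear_combination e1)
  have hc' : e q₁ = e a₂ * e c := by rw [← h2 q₁, hc, map_mul, h2]
  refine nzd_core (c := -e c) (fun y hy => (mul_eq_zero.1 hy).resolve_left (MvPolynomial.X_ne_zero i))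
    hq.symm (h3 _ ?_) (h3 _ ?_)
  · rw [map_add, map_mul, map_neg, h2, hc']; ring
  · apply mul_left_cancel₀ h.1
    rw [map_sub, map_mul, map_neg, h2]
    linear_combination e1 - e a₁ * hc'

theorem nzd_X {a₁ a₂ : P6[X]} (h : Reg (a₁.eval 0) (a₂.eval 0)) {g : P6[X]}
    (hg : X * g ∈ Ideal.span {a₁, a₂}) : g ∈ Ideal.span {a₁, a₂} := by
  obtain ⟨q₁, q₂, hq⟩ := Ideal.mem_span_pair.1 hg
  have e1 := congrArg (eval 0) hq
  simp only [eval_add, eval_mul, eval_X, zero_mul] at e1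
  obtain ⟨c, hc⟩ := h.2 (q₁.eval 0) (-q₂.eval 0) (by linear_combination e1)
  refine nzd_core (c := -Polynomial.C c) (fun y hy => (mul_eq_zero.1 hy).resolve_left X_ne_zero)
    hq.symm ?_ ?_
  · rw [X_dvd_iff, coeff_zero_eq_eval_zero]; simp [hc]
  · rw [X_dvd_iff, coeff_zero_eq_eval_zero]
    apply mul_left_cancel₀ h.1
    simp only [eval_sub, eval_mul, eval_neg, eval_C]
    linear_combination e1 - a₁.eval 0 * hc

section Q
variable (d b : ℕ) (ε : ℤ)

noncomputable def I6 (m l : ℤ) : Ideal P6 :=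
  Ideal.span {r1 d b ε (m : P6) MvPolynomial.X, r2 d (l : P6) MvPolynomial.X}

def Q (m l : ℤ) : Type := P6 ⧸ I6 d b ε m l

noncomputable instance (m l : ℤ) : CommRing (Q d b ε m l) := Ideal.Quotient.commRing _
noncomputable instance (m l : ℤ) : Algebra ℂ (Q d b ε m l) := Ideal.Quotient.algebra ℂ

noncomputable def mkQ (m l : ℤ) : P6 →ₐ[ℂ] Q d b ε m l := Ideal.Quotient.mkₐ ℂ (I6 d b ε m l)

theorem mkQ_surj (m l : ℤ) : Function.Surjective (mkQ d b ε m l) := Ideal.Quotient.mk_surjective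

theorem mkQ_eq_zero (m l : ℤ) (a : P6) : mkQ d b ε m l a = 0 ↔ a ∈ I6 d b ε m l :=
  Ideal.Quotient.eq_zero_iff_mem

noncomputable def gen (m l : ℤ) (i : Fin 6) : Q d b ε m l := mkQ d b ε m l (MvPolynomial.X i)

theorem gen_r1 (m l : ℤ) : r1 d b ε (m : Q d b ε m l) (gen d b ε m l) = 0 := by
  have := (mkQ_eq_zero d b ε m l _).2 (Ideal.subset_span (Or.inl rfl))
  rwa [map_r1, map_intCast] at this

theorem gen_r2 (m l : ℤ) : r2 d (l : Q d b ε m l) (gen d b ε m l) = 0 := by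
  have := (mkQ_eq_zero d b ε m l _).2 (Ideal.subset_span (Or.inr rfl))
  rwa [map_r2, map_intCast] at this

variable {d b ε}

theorem exists_lift {m l : ℤ} {T : Type} [CommRing T] [Algebra ℂ T] (f : Fin 6 → T)
    (h1 : r1 d b ε (m : T) f = 0) (h2 : r2 d (l : T) f = 0) :
    ∃ φ : Q d b ε m l →ₐ[ℂ] T, ∀ i, φ (gen d b ε m l i) = f i := by
  refine ⟨Ideal.Quotient.liftₐ (I6 d b ε m l) (MvPolynomial.aeval f) fun a ha => ?_, fun i => ?_⟩
  · obtain ⟨q₁, q₂, rfl⟩ := Ideal.mem_span_pair.1 ha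
    simp [map_r1, map_r2, h1, h2]
  · exact (Ideal.Quotient.lift_mk _ _ _).trans (MvPolynomial.aeval_X _ _)

theorem Q_ind {m l : ℤ} {p : Q d b ε m l → Prop} (hC : ∀ c : ℂ, p (algebraMap ℂ _ c))
    (hg : ∀ i, p (gen d b ε m l i)) (ha : ∀ a b, p a → p b → p (a + b))
    (hm : ∀ a b, p a → p b → p (a * b)) (a : Q d b ε m l) : p a := by
  obtain ⟨a, rfl⟩ := mkQ_surj d b ε m l a
  induction a using MvPolynomial.induction_on with
  | C a => exact hC a
  | add p q hp hq => rw [map_add]; exact ha _ _ hp hq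
  | mul_X p n hp => rw [map_mul]; exact hm _ _ hp (hg n)

theorem Q_top {m l : ℤ} {U : Subalgebra ℂ (Q d b ε m l)} (h : ∀ i, gen d b ε m l i ∈ U)
    (a : Q d b ε m l) : a ∈ U :=
  Q_ind (p := fun a => a ∈ U) U.algebraMap_mem h (fun _ _ => add_mem) (fun _ _ => mul_mem) a

theorem Q_nontriv (m l : ℤ) (hb : b ≠ 0) : ∃ φ : Q d b ε m l →ₐ[ℂ] ℂ, φ (gen d b ε m l 5) = 1 := by
  obtain ⟨φ, h⟩ := exists_lift (d := d) (b := b) (ε := ε) (m := m) (l := l) (T := ℂ)
    ![0, 0, 0, 0, 0, 1] (by simp [r1, hb]) (by simp [r2])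
  exact ⟨φ, by simp [h]⟩

/-- the variables as constants -/
noncomputable abbrev cX (i : Fin 6) : P6[X] := Polynomial.C (MvPolynomial.X i)

variable (d b ε)

noncomputable def I7 (k j : ℕ) (l : ℤ) : Ideal P6[X] :=
  Ideal.span {r1 d b ε (X ^ k) fun i => cX i,
    r2 d ((l : P6[X]) * X ^ j) fun i => cX i}

abbrev RR (k j : ℕ) (l : ℤ) := P6[X] ⧸ I7 d b ε k j l

noncomputable instance (k j : ℕ) (l : ℤ) : CommRing (RR d b ε k j l) := Ideal.Quotient.commRing _
noncomputable instance (k j : ℕ) (l : ℤ) : Algebra ℂ (RR d b ε k j l) := Ideal.Quotient.algebra ℂ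

variable {d b ε}

theorem exists_liftR {k j : ℕ} {l : ℤ} {T : Type} [CommRing T] [Algebra ℂ T] (f : Fin 6 → T)
    (t : T) (h1 : r1 d b ε (t ^ k) f = 0) (h2 : r2 d (l * t ^ j) f = 0) :
    ∃ φ : RR d b ε k j l →ₐ[ℂ] T, φ (Ideal.Quotient.mk _ X) = t ∧
      ∀ i, φ (Ideal.Quotient.mk _ (cX i)) = f i := by
  refine ⟨Ideal.Quotient.liftₐ _ (eval₂AlgHom (MvPolynomial.aeval f) t fun _ => Commute.all _ _)
    fun a ha => ?_, by simp, fun i => by simp⟩
  obtain ⟨q₁, q₂, rfl⟩ := Ideal.mem_span_pair.1 ha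
  rw [map_add, map_mul, map_mul, map_r1, map_r2, map_mul, map_intCast]
  simp [h1, h2]

theorem RR_ind {k j : ℕ} {l : ℤ} {p : RR d b ε k j l → Prop}
    (hC : ∀ c : ℂ, p (algebraMap ℂ (RR d b ε k j l) c))
    (ht : p (Ideal.Quotient.mk _ X))
    (hg : ∀ i, p (Ideal.Quotient.mk _ (cX i)))
    (ha : ∀ a b, p a → p b → p (a + b)) (hm : ∀ a b, p a → p b → p (a * b))
    (a : RR d b ε k j l) : p a := by
  obtain ⟨a, rfl⟩ := Ideal.Quotient.mk_surjective a
  have h1 : ∀ a : P6, p (Ideal.Quotient.mk _ (Polynomial.C a)) := fun a => by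
    induction a using MvPolynomial.induction_on with
    | C a => exact hC a
    | add p q hp hq => rw [map_add, map_add]; exact ha _ _ hp hq
    | mul_X p n hp => rw [map_mul, map_mul]; exact hm _ _ hp (hg n)
  induction a using Polynomial.induction_on with
  | C a => exact h1 a
  | add p q hp hq => rw [map_add]; exact ha _ _ hp hq
  | monomial n a h => rw [pow_succ, ← mul_assoc, map_mul]; exact hm _ _ h ht

theorem exists_rees {k j : ℕ} {l m' : ℤ} (hm' : (0 : P6) ^ k = m') (hj : j ≠ 0) (w : Fin 6 → ℤ)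
    (d₁ d₂ : ℤ) (hreg : Reg (r1 d b ε (m' : P6) MvPolynomial.X) (r2 d 0 MvPolynomial.X))
    (hs : ∀ (T : Type) [CommRing T] (t : Tˣ) (f : Fin 6 → T),
      r1 d b ε ((t : T) ^ k) (fun i => (t ^ w i : Tˣ) * f i) = (t ^ d₁ : Tˣ) * r1 d b ε 1 f ∧
      r2 d (l * (t : T) ^ j) (fun i => (t ^ w i : Tˣ) * f i) = (t ^ d₂ : Tˣ) * r2 d (l : T) f) :
    ∃ S : Rees (Q d b ε 1 l) (RR d b ε k j l) (Q d b ε m' 0),
      (∀ i, ∃ g, S.θ g = T (w i) * C (gen d b ε 1 l i) ∧ S.π g = gen d b ε m' 0 i) ∧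
      ∀ (a : Fin 6 → ℂ) (c : ℂˣ) (σ : Q d b ε 1 l →ₐ[ℂ] Q d b ε 1 l)
        (τ : Q d b ε m' 0 →ₐ[ℂ] Q d b ε m' 0), (∀ i, σ (gen d b ε 1 l i) = a i • gen d b ε 1 l i) →
        (∀ i, τ (gen d b ε m' 0 i) = (a i * (c ^ w i : ℂˣ)) • gen d b ε m' 0 i) →
        S.Compat σ c τ := by
  have g1 := gen_r1 d b ε 1 l
  have g2 := gen_r2 d b ε 1 l
  rw [Int.cast_one] at g1
  obtain ⟨θ, θt, θg⟩ := exists_liftR (d := d) (b := b) (ε := ε) (k := k) (j := j) (l := l)
    (fun i => T (w i) * C (gen d b ε 1 l i)) (T 1 : (Q d b ε 1 l)[T;T⁻¹])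
    (by
      have := (hs _ (isUnit_T 1).unit fun i => C (gen d b ε 1 l i)).1
      simp only [unit_T_zpow, IsUnit.unit_spec] at this
      rw [this, ← map_one C, ← map_r1, g1]; simp)
    (by
      have := (hs _ (isUnit_T 1).unit fun i => C (gen d b ε 1 l i)).2
      simp only [unit_T_zpow, IsUnit.unit_spec] at this
      rw [this, ← map_intCast (C : Q d b ε 1 l →+* _), ← map_r2, g2]; simp)
  obtain ⟨π, πt, πg⟩ := exists_liftR (d := d) (b := b) (ε := ε) (k := k) (j := j) (l := l)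
    (gen d b ε m' 0) 0
    (by
      have : (0 : Q d b ε m' 0) ^ k = m' := by
        simpa using congrArg (mkQ d b ε m' 0) hm'
      rw [this, gen_r1])
    (by simpa [hj] using gen_r2 d b ε m' 0)
  set t : RR d b ε k j l := Ideal.Quotient.mk _ X with ht
  have ev1 : eval 0 (r1 d b ε (X ^ k) fun i => cX i : P6[X]) =
      r1 d b ε (m' : P6) MvPolynomial.X := by
    rw [← coe_evalRingHom, map_r1]; simp [hm']
  have ev2 : eval 0 (r2 d ((l : P6[X]) * X ^ j) fun i => cX i : P6[X]) =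
      r2 d 0 MvPolynomial.X := by
    rw [← coe_evalRingHom, map_r2]; simp [hj]
  have hnzd : ∀ y : RR d b ε k j l, t * y = 0 → y = 0 := fun y hy => by
    obtain ⟨y, rfl⟩ := Ideal.Quotient.mk_surjective y
    rw [ht, ← map_mul, Ideal.Quotient.eq_zero_iff_mem] at hy
    exact Ideal.Quotient.eq_zero_iff_mem.2 (nzd_X (by rw [ev1, ev2]; exact hreg) hy)
  have hinj : Function.Injective θ := by
    let L := Localization.Away t
    let u : Lˣ := (IsLocalization.Away.algebraMap_isUnit (S := L) t).unit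
    have hu : (u : L) = algebraMap _ L t := rfl
    let f : Fin 6 → L := fun i => (u ^ (-w i) : Lˣ) *
      algebraMap _ L (Ideal.Quotient.mk (I7 d b ε k j l) (cX i))
    have hf : ∀ i, (u ^ w i : Lˣ) * f i = algebraMap _ L
        (Ideal.Quotient.mk (I7 d b ε k j l) (cX i)) := fun i => by
      simp [f, ← mul_assoc, ← Units.val_mul]
    have z1 := (Ideal.Quotient.eq_zero_iff_mem (I := I7 d b ε k j l)).2
      (Ideal.subset_span (Or.inl rfl))
    have z2 := (Ideal.Quotient.eq_zero_iff_mem (I := I7 d b ε k j l)).2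
      (Ideal.subset_span (Or.inr rfl))
    replace z1 := congrArg (algebraMap (RR d b ε k j l) L) z1
    replace z2 := congrArg (algebraMap (RR d b ε k j l) L) z2
    rw [map_r1, map_r1, map_zero, map_pow, map_pow] at z1
    rw [map_r2, map_r2, map_zero, map_mul, map_mul, map_intCast, map_intCast, map_pow,
      map_pow] at z2
    obtain ⟨η, hη⟩ := exists_lift (d := d) (b := b) (ε := ε) (m := 1) (l := l) f
      (by
        have := (hs L u f).1
        simp only [hf] at this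
        rw [hu, z1, eq_comm, Units.mul_right_eq_zero] at this
        rwa [Int.cast_one])
      (by
        have := (hs L u f).2
        simp only [hf] at this
        rwa [hu, z2, eq_comm, Units.mul_right_eq_zero] at this)
    have key : ∀ y, LaurentPolynomial.eval₂ (η : _ →+* L) u (θ y) = algebraMap _ L y := by
      intro y
      induction y using RR_ind with
      | hC c =>
        rw [AlgHom.commutes, ← IsScalarTower.algebraMap_apply]
        exact (LaurentPolynomial.eval₂_C _ _ _).trans (η.commutes c)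
      | ht => rw [θt, eval₂_T, zpow_one, hu]
      | hg i => rw [θg, map_mul, eval₂_T, LaurentPolynomial.eval₂_C, ← hf]; simp [hη]
      | ha a b h1 h2 => simp only [map_add, h1, h2]
      | hm a b h1 h2 => simp only [map_mul, h1, h2]
    rw [injective_iff_map_eq_zero]
    intro y hy
    have := key y
    rw [hy, map_zero, eq_comm, IsLocalization.map_eq_zero_iff (Submonoid.powers t)] at this
    obtain ⟨⟨_, n, rfl⟩, hn⟩ := this
    induction n with
    | zero => simpa using hn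
    | succ n ih => exact ih (hnzd _ (by rw [← hn]; simp only [pow_succ]; ring))
  have hup : ∀ {y : (Q d b ε 1 l)[T;T⁻¹]} {n m : ℤ}, (∃ g, θ g = T n * y) → n ≤ m →
      ∃ g, θ g = T m * y := by
    rintro y n m ⟨g, hg⟩ hm
    obtain ⟨e, rfl⟩ := Int.le.dest hm
    exact ⟨t ^ e * g, by rw [map_mul, map_pow, θt, T_pow, hg, T_add]; ring_nf⟩
  refine ⟨⟨θ, π, t, hinj, θt, fun a => ?_, fun a => ?_, fun y => ⟨fun hy => ?_, ?_⟩⟩,
    fun i => ⟨_, θg i, πg i⟩, fun a c σ τ hσ hτ y => ?_⟩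
  · induction a using Q_ind with
    | hC c => exact ⟨0, algebraMap ℂ _ c, by rw [AlgHom.commutes]; simp⟩
    | hg i => exact ⟨(w i).toNat, hup ⟨_, θg i⟩ (Int.self_le_toNat _)⟩
    | ha a b h1 h2 =>
      obtain ⟨n, h1⟩ := h1
      obtain ⟨m, h2⟩ := h2
      obtain ⟨g, hg⟩ := hup h1 (show (n : ℤ) ≤ (n + m : ℕ) by omega)
      obtain ⟨g', hg'⟩ := hup h2 (show (m : ℤ) ≤ (n + m : ℕ) by omega)
      exact ⟨n + m, g + g', by rw [map_add, hg, hg', map_add, mul_add]⟩
    | hm a b h1 h2 =>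
      obtain ⟨n, g, hg⟩ := h1
      obtain ⟨m, g', hg'⟩ := h2
      exact ⟨n + m, g * g', by rw [map_mul, hg, hg', map_mul]; push_cast; rw [T_add]; ring⟩
  · induction a using Q_ind with
    | hC c => exact ⟨_, π.commutes c⟩
    | hg i => exact ⟨_, πg i⟩
    | ha a b h1 h2 =>
      obtain ⟨g, rfl⟩ := h1
      obtain ⟨g', rfl⟩ := h2
      exact ⟨g + g', map_add _ _ _⟩
    | hm a b h1 h2 =>
      obtain ⟨g, rfl⟩ := h1
      obtain ⟨g', rfl⟩ := h2
      exact ⟨g * g', map_mul _ _ _⟩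
  · obtain ⟨y, rfl⟩ := Ideal.Quotient.mk_surjective y
    have h1 : ∀ a : P6, π (Ideal.Quotient.mk _ (Polynomial.C a)) = mkQ d b ε m' 0 a := by
      intro a
      induction a using MvPolynomial.induction_on with
      | C a => exact π.commutes a
      | add p q hp hq => simp only [map_add, hp, hq]
      | mul_X p n hp => simp only [map_mul, hp, πg]; rfl
    have h2 : ∀ z : P6[X], z.eval 0 = 0 → t ∣ Ideal.Quotient.mk (I7 d b ε k j l) z := fun z hz =>
      map_dvd _ (X_dvd_iff.2 (by rwa [coeff_zero_eq_eval_zero]))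
    have h3 : π (Ideal.Quotient.mk _ (y - Polynomial.C (y.eval 0))) = 0 := by
      obtain ⟨z, hz⟩ := h2 (y - Polynomial.C (y.eval 0)) (by simp)
      rw [hz, map_mul, πt, zero_mul]
    rw [map_sub, map_sub, hy, h1, zero_sub, neg_eq_zero, mkQ_eq_zero] at h3
    obtain ⟨q₁, q₂, hq⟩ := Ideal.mem_span_pair.1 h3
    have h4 := h2 (y - (Polynomial.C q₁ * (r1 d b ε (X ^ k) fun i =>
      cX i) + Polynomial.C q₂ * r2 d ((l : P6[X]) * X ^ j) fun i =>
      cX i)) (by
        rw [eval_sub, eval_add, eval_mul, eval_mul, ev1, ev2, ← hq]; simp)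
    rwa [map_sub, (Ideal.Quotient.eq_zero_iff_mem (I := I7 d b ε k j l)).2
      (Ideal.mem_span_pair.2 ⟨Polynomial.C q₁, Polynomial.C q₂, rfl⟩), sub_zero] at h4
  · rintro ⟨z, rfl⟩
    rw [map_mul, πt, zero_mul]
  · change ∃ b', θ b' = sL σ c (θ y) ∧ π b' = τ (π y)
    induction y using RR_ind with
    | hC r =>
      refine ⟨algebraMap ℂ _ r, ?_, by simp⟩
      rw [AlgHom.commutes]
      exact ((sL_C _ _ _).trans (congrArg C (σ.commutes r))).symm
    | ht => exact ⟨(c : ℂ) • t, by rw [map_smul, θt, sL_T, zpow_one, Algebra.smul_def],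
        by rw [map_smul, πt]; simp⟩
    | hg i =>
      refine ⟨(a i * (c ^ w i : ℂˣ)) • Ideal.Quotient.mk _ (cX i), ?_,
        by rw [map_smul, πg, hτ]⟩
      rw [map_smul, θg, map_mul, sL_T, sL_C, RingHom.coe_coe, hσ, Algebra.smul_def,
        Algebra.smul_def (a i), map_mul, map_mul]
      have : (C (algebraMap ℂ (Q d b ε 1 l) (a i)) : (Q d b ε 1 l)[T;T⁻¹]) =
        algebraMap ℂ _ (a i) := rfl
      rw [this]; ring
    | ha a b h1 h2 =>
      obtain ⟨g, e1, e2⟩ := h1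
      obtain ⟨g', e1', e2'⟩ := h2
      exact ⟨g + g', by simp only [map_add, e1, e1'], by simp only [map_add, e2, e2']⟩
    | hm a b h1 h2 =>
      obtain ⟨g, e1, e2⟩ := h1
      obtain ⟨g', e1', e2'⟩ := h2
      exact ⟨g * g', by simp only [map_mul, e1, e1'], by simp only [map_mul, e2, e2']⟩

end Q

end Crest.Agent.H4.AF
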