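import Crest.Agent.H4.AF.A2

/-! Scalings, the two Rees algebras, and the embedding of the degenerate rings. -/

namespace Crest.Agent.H4.AF

open LaurentPolynomial
open Polynomial hiding C

macro "smem" : tactic => `(tactic| repeat' (first | assumption | exact one_mem _ | exact zero_mem _ | exact ofNat_mem _ _ | exact intCast_mem _ _ | exact Subalgebra.algebraMap_mem _ _ | with_reducible apply add_mem | with_reducible apply sub_mem | with_reducible apply mul_mem | with_reducible apply pow_mem | with_reducible apply neg_mem))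

section
variable {T : Type*} [CommRing T]

theorem scale {d b : ℕ} {ε : ℤ} {m m' l l' : T} {a : Fin 6 → T} (f : Fin 6 → T)
    (h23 : a 2 * a 3 = 1) (h5 : a 5 = a 2 ^ 2 * a 4) (h0 : a 0 ^ b = a 2 ^ 2)
    (h1 : a 1 ^ (d + 1) * a 4 = 1) (hm : m' * a 3 = a 2 ^ 2 * m)
    (hl : l' * a 1 ^ d * a 0 = a 4 * l) :
    r1 d b ε m' (fun i => a i * f i) = a 2 ^ 2 * r1 d b ε m f ∧
      r2 d l' (fun i => a i * f i) = a 4 * r2 d l f := by
  have hF : Ff (fun i => a i * f i) = a 5 * Ff f := by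
    simp only [Ff, h5]
    linear_combination (2 * f 2 * f 3 * a 2 ^ 2 * a 4 * f 5) * h23
  have hJ : Jf (fun i => a i * f i) = a 4 * Jf f := by
    simp only [Jf, h5]
    linear_combination (2 * f 2 * f 3 * a 4 * f 4 + (a 2 * a 3 + 1) * a 4 * f 3 ^ 2 * f 5) * h23
  constructor
  · simp only [r1, hF, mul_pow, h0, h5]
    linear_combination f 3 * hm - (f 1 ^ (d + 1) * a 2 ^ 2 * Ff f) * h1
  · simp only [r2, hJ, mul_pow]
    linear_combination -(f 1 ^ d * f 0) * hl - (f 1 ^ (d + 1) * a 4 * Jf f ^ 2) * h1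

theorem uz_mul (t : Tˣ) (m n : ℤ) : ((t ^ m : Tˣ) : T) * (t ^ n : Tˣ) = (t ^ (m + n) : Tˣ) := by
  rw [zpow_add, Units.val_mul]

theorem uz_pow (t : Tˣ) (m : ℤ) (n : ℕ) : ((t ^ m : Tˣ) : T) ^ n = (t ^ (m * n) : Tˣ) := by
  rw [zpow_mul, zpow_natCast, Units.val_pow_eq_pow_val]

theorem uz_nat (t : Tˣ) (n : ℕ) : (t : T) ^ n = (t ^ (n : ℤ) : Tˣ) := by
  rw [zpow_natCast, Units.val_pow_eq_pow_val]

theorem uz_one (t : Tˣ) : (1 : T) = (t ^ (0 : ℤ) : Tˣ) := by simp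

end

def w1 (d : ℕ) : Fin 6 → ℤ := ![0, -1, 0, 0, d + 1, d + 1]
def w2 (b : ℕ) : Fin 6 → ℤ := ![2, 0, b, -b, 0, 2 * b]

theorem hs1 (d b : ℕ) (ε : ℤ) (T : Type) [CommRing T] (t : Tˣ) (f : Fin 6 → T) (m l : T) :
    r1 d b ε m (fun i => (t ^ w1 d i : Tˣ) * f i) = r1 d b ε m f ∧
      r2 d (l * (t : T) ^ (2 * d + 1)) (fun i => (t ^ w1 d i : Tˣ) * f i) =
        (t ^ (d + 1 : ℤ) : Tˣ) * r2 d l f := by
  have := scale (d := d) (b := b) (ε := ε) (m := m) (m' := m) (l := l)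
    (l' := l * (t : T) ^ (2 * d + 1)) (a := fun i => (t ^ w1 d i : Tˣ)) f
    (by simp [w1]) (by simp [w1]) (by simp [w1])
    (by rw [uz_pow, uz_mul, uz_one t]; congr 2; simp [w1]) (by simp [w1])
    (by
      rw [uz_nat, uz_pow, mul_assoc, mul_assoc, uz_mul, uz_mul, mul_comm]
      congr 3; simp [w1]; ring)
  simpa [w1] using this

theorem hs2 (d b : ℕ) (ε : ℤ) (T : Type) [CommRing T] (t : Tˣ) (f : Fin 6 → T) :
    r1 d b ε ((t : T) ^ (3 * b)) (fun i => (t ^ w2 b i : Tˣ) * f i) =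
      (t ^ (2 * b : ℤ) : Tˣ) * r1 d b ε 1 f ∧
      r2 d 0 (fun i => (t ^ w2 b i : Tˣ) * f i) = r2 d 0 f := by
  have := scale (d := d) (b := b) (ε := ε) (m := 1) (m' := (t : T) ^ (3 * b)) (l := 0)
    (l' := 0) (a := fun i => (t ^ w2 b i : Tˣ)) f
    (by rw [uz_mul, uz_one t]; congr 2; simp [w2])
    (by rw [uz_pow, uz_mul]; congr 2; simp [w2]; ring)
    (by rw [uz_pow, uz_pow]; congr 2; simp [w2]; ring)
    (by simp [w2])
    (by rw [uz_nat, uz_pow, uz_mul, mul_one]; congr 2; simp [w2]; ring) (by simp)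
  rw [uz_pow] at this
  simpa [w2, mul_comm] using this

theorem reg_gen {d b : ℕ} {ε : ℤ} (hε : ε * ε = 1) (hb : b ≠ 0) (m : ℤ) (f : Fin 6 → P6)
    (g : Fin 5 → MvPolynomial (Fin 5) ℂ) (h0 : f 0 = MvPolynomial.X 0)
    (hf : ∀ i : Fin 5, f i.succ = MvPolynomial.rename Fin.succ (g i))
    (hg0 : MvPolynomial.eval ![0, 0, 0, 1, 0] (g 0) = 0)
    (hg3 : MvPolynomial.eval ![0, 0, 0, 1, 0] (g 3) = 1) :
    Reg (r1 d b ε (m : P6) f) (r2 d 0 f) := by
  have e1 := hf 0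
  have e2 := hf 1
  have e3 := hf 2
  have e4 := hf 3
  have e5 := hf 4
  change f 1 = _ at e1
  change f 2 = _ at e2
  change f 3 = _ at e3
  change f 4 = _ at e4
  change f 5 = _ at e5
  have := reg_of hε b hb (r1 d b ε m ![0, g 0, g 1, g 2, g 3, g 4])
    (r2 d 0 ![0, g 0, g 1, g 2, g 3, g 4]) fun h => by
      have := congrArg (MvPolynomial.eval ![0, 0, 0, 1, 0]) h
      simp [r2, hg0, hg3] at this
  convert this using 1
  · simp [r1, Ff, h0, e1, e2, e3, e4, e5, hb, map_ofNat]; ring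
  · simp [r2, Jf, e1, e2, e3, e4, e5, map_ofNat]

section
variable {d b : ℕ} {ε : ℤ}

theorem reg_X (hε : ε * ε = 1) (hb : b ≠ 0) (m : ℤ) :
    Reg (r1 d b ε (m : P6) MvPolynomial.X) (r2 d 0 MvPolynomial.X) :=
  reg_gen hε hb m _ MvPolynomial.X rfl (fun i => by simp) (by simp) (by simp)

theorem nzd_gen (hε : ε * ε = 1) (hb : b ≠ 0) (m : ℤ) (i : Fin 5) (hi : i ≠ 3)
    (g : Q d b ε m 0) (hg : gen d b ε m 0 i.succ * g = 0) : g = 0 := by
  obtain ⟨g, rfl⟩ := mkQ_surj d b ε m 0 g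
  rw [gen, ← map_mul, mkQ_eq_zero] at hg
  rw [mkQ_eq_zero]
  refine nzd_var i.succ ?_ hg
  rw [map_r1, map_r2, map_intCast, Int.cast_zero, map_zero]
  refine reg_gen hε hb m _ (Function.update MvPolynomial.X i 0) ?_ (fun j => ?_) ?_ ?_
  · simp [Function.update_of_ne (Fin.succ_ne_zero i).symm]
  · by_cases h : j = i
    · subst h; simp
    · simp [h]
  · by_cases h : (0 : Fin 5) = i
    · subst h; simp
    · simp [h]
  · simp [hi.symm]

theorem exists_lift' {m l : ℤ} {T : Type} [CommRing T] [Algebra ℂ T] (u p s x F J : T)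
    (h1 : m * x - s ^ 2 - ε * u ^ b = p ^ (d + 1) * F)
    (h2 : x ^ 2 * F - (1 + 2 * s * x) * J - p ^ (d + 1) * J ^ 2 = l * p ^ d * u) :
    ∃ φ : Q d b ε m l →ₐ[ℂ] T, φ (gen d b ε m l 0) = u ∧ φ (gen d b ε m l 1) = p ∧
      φ (gen d b ε m l 2) = s ∧ φ (gen d b ε m l 3) = x ∧ φ (Ff (gen d b ε m l)) = F ∧
      φ (Jf (gen d b ε m l)) = J := by
  have hF : Ff ![u, p, s, x, x ^ 2 * F - (1 + 2 * s * x) * J, (1 - 2 * s * x) * F + 4 * s ^ 2 * J]
      = F := by simp [Ff]; ring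
  have hJ : Jf ![u, p, s, x, x ^ 2 * F - (1 + 2 * s * x) * J, (1 - 2 * s * x) * F + 4 * s ^ 2 * J]
      = J := by simp [Jf]; ring
  obtain ⟨φ, hφ⟩ := exists_lift (d := d) (b := b) (ε := ε) (m := m) (l := l)
    ![u, p, s, x, x ^ 2 * F - (1 + 2 * s * x) * J, (1 - 2 * s * x) * F + 4 * s ^ 2 * J]
    (by rw [r1, hF]; simp [h1]) (by rw [r2, hJ]; simp [h2])
  refine ⟨φ, hφ 0, hφ 1, hφ 2, hφ 3, ?_, ?_⟩
  · rw [map_Ff, funext hφ, hF]
  · rw [map_Jf, funext hφ, hJ]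

theorem h_eq {T : Type*} [CommRing T] (f : Fin 6 → T) :
    f 4 = f 3 ^ 2 * Ff f - (1 + 2 * f 2 * f 3) * Jf f := by simp only [Ff, Jf]; ring

theorem v_eq {T : Type*} [CommRing T] (f : Fin 6 → T) :
    f 5 = (1 - 2 * f 2 * f 3) * Ff f + 4 * f 2 ^ 2 * Jf f := by simp only [Ff, Jf]; ring

theorem Q_ind' {m l : ℤ} {p : Q d b ε m l → Prop} (hC : ∀ c : ℂ, p (algebraMap ℂ _ c))
    (h0 : p (gen d b ε m l 0)) (h1 : p (gen d b ε m l 1)) (h2 : p (gen d b ε m l 2))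
    (h3 : p (gen d b ε m l 3)) (hF : p (Ff (gen d b ε m l))) (hJ : p (Jf (gen d b ε m l)))
    (ha : ∀ a b, p a → p b → p (a + b)) (hm : ∀ a b, p a → p b → p (a * b))
    (a : Q d b ε m l) : p a := by
  let U : Subalgebra ℂ (Q d b ε m l) :=
    { carrier := {a | p a}
      mul_mem' := hm _ _
      add_mem' := ha _ _
      algebraMap_mem' := hC }
  have g2 : gen d b ε m l 2 ∈ U := h2
  have g3 : gen d b ε m l 3 ∈ U := h3
  have gF : Ff (gen d b ε m l) ∈ U := hF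
  have gJ : Jf (gen d b ε m l) ∈ U := hJ
  refine Q_top (U := U) (fun i => ?_) a
  fin_cases i
  · exact h0
  · exact h1
  · exact h2
  · exact h3
  · change gen d b ε m l 4 ∈ U
    rw [h_eq (gen d b ε m l)]; smem
  · change gen d b ε m l 5 ∈ U
    rw [v_eq (gen d b ε m l)]; smem

theorem Q_ext {m l : ℤ} {T : Type*} [CommRing T] [Algebra ℂ T] {φ ψ : Q d b ε m l →ₐ[ℂ] T}
    (h0 : φ (gen d b ε m l 0) = ψ (gen d b ε m l 0))
    (h1 : φ (gen d b ε m l 1) = ψ (gen d b ε m l 1))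
    (h2 : φ (gen d b ε m l 2) = ψ (gen d b ε m l 2))
    (h3 : φ (gen d b ε m l 3) = ψ (gen d b ε m l 3))
    (hF : φ (Ff (gen d b ε m l)) = ψ (Ff (gen d b ε m l)))
    (hJ : φ (Jf (gen d b ε m l)) = ψ (Jf (gen d b ε m l))) (a) : φ a = ψ a :=
  Q_ind' (p := fun a => φ a = ψ a) (fun c => by simp) h0 h1 h2 h3 hF hJ
    (fun a b h1 h2 => by simp [h1, h2]) (fun a b h1 h2 => by simp [h1, h2]) a

theorem gen_F (m l : ℤ) : gen d b ε m l 1 ^ (d + 1) * Ff (gen d b ε m l) =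
    m * gen d b ε m l 3 - gen d b ε m l 2 ^ 2 - ε * gen d b ε m l 0 ^ b := by
  have := gen_r1 d b ε m l
  rw [r1] at this
  linear_combination -this

theorem gen_H (m l : ℤ) : gen d b ε m l 3 ^ 2 * Ff (gen d b ε m l) -
    (1 + 2 * gen d b ε m l 2 * gen d b ε m l 3) * Jf (gen d b ε m l) -
    gen d b ε m l 1 ^ (d + 1) * Jf (gen d b ε m l) ^ 2 =
      l * gen d b ε m l 1 ^ d * gen d b ε m l 0 := by
  have := gen_r2 d b ε m l
  rw [r2, h_eq (gen d b ε m l)] at this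
  linear_combination this

/-- the scaling automorphisms -/
theorem exists_scal (m : ℤ) (c : ℂˣ) : ∃ τ : Q d b ε m 0 →ₐ[ℂ] Q d b ε m 0,
    ∀ i, τ (gen d b ε m 0 i) = ((c ^ w1 d i : ℂˣ) : ℂ) • gen d b ε m 0 i := by
  have := hs1 d b ε _ (Units.map (algebraMap ℂ (Q d b ε m 0) : ℂ →* _) c) (gen d b ε m 0) m 0
  obtain ⟨τ, h⟩ := exists_lift (d := d) (b := b) (ε := ε) (m := m) (l := 0) _
    (this.1.trans (gen_r1 _ _ _ _ _)) (by
      have h := gen_r2 d b ε m 0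
      rw [Int.cast_zero] at h ⊢
      rw [zero_mul, h, mul_zero] at this
      exact this.2)
  exact ⟨τ, fun i => by rw [h, Algebra.smul_def, ← map_zpow]; rfl⟩

/-- `z = s x + P J` -/
noncomputable def zz (d b : ℕ) (ε m : ℤ) : Q d b ε m 0 :=
  gen d b ε m 0 2 * gen d b ε m 0 3 + gen d b ε m 0 1 ^ (d + 1) * Jf (gen d b ε m 0)

/-- `y = s + x (m x - ε u ^ b)` -/
noncomputable def yy (d b : ℕ) (ε m : ℤ) : Q d b ε m 0 :=
  gen d b ε m 0 2 + gen d b ε m 0 3 * (m * gen d b ε m 0 3 - ε * gen d b ε m 0 0 ^ b)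

theorem xy_eq (m : ℤ) : gen d b ε m 0 3 * yy d b ε m = zz d b ε m * (zz d b ε m + 1) := by
  have h1 := gen_F (d := d) (b := b) (ε := ε) m 0
  have h2 := gen_H (d := d) (b := b) (ε := ε) m 0
  rw [Int.cast_zero] at h2
  rw [zz, yy]
  linear_combination (gen d b ε m 0 1 ^ (d + 1)) * h2 - gen d b ε m 0 3 ^ 2 * h1

def L0 : Type := ℂ[T;T⁻¹]
noncomputable instance : CommRing L0 := inferInstanceAs (CommRing ℂ[T;T⁻¹])
noncomputable instance : Algebra ℂ L0 := inferInstanceAs (Algebra ℂ ℂ[T;T⁻¹])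
instance : IsDomain L0 := inferInstanceAs (IsDomain ℂ[T;T⁻¹])
noncomputable def p00 : L0ˣ := (isUnit_T (R := ℂ) 1).unit

theorem exists_L0 {L : Type} [CommRing L] [Algebra ℂ L] (u : Lˣ) :
    ∃ ρ : L0 →+* L, ρ p00 = u ∧ ∀ c, ρ (algebraMap ℂ L0 c) = algebraMap ℂ L c :=
  ⟨LaurentPolynomial.eval₂ (algebraMap ℂ L) u, (eval₂_T _ _ 1).trans (by simp),
    fun c => LaurentPolynomial.eval₂_C _ _ c⟩

def Lam : Type := L0[X]
noncomputable instance : CommRing Lam := inferInstanceAs (CommRing L0[X])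
noncomputable instance : Algebra ℂ Lam := inferInstanceAs (Algebra ℂ L0[X])
instance : IsDomain Lam := inferInstanceAs (IsDomain L0[X])
instance : CharZero Lam := charZero_of_injective_algebraMap (algebraMap ℂ Lam).injective
noncomputable def p0 : Lamˣ := Units.map (Polynomial.C : L0 →+* L0[X]).toMonoidHom p00
noncomputable def u0 : Lam := (X : L0[X])

theorem exists_Lam {L : Type} [CommRing L] [Algebra ℂ L] (p : Lˣ) (u : L) :
    ∃ ρ : Lam →+* L, ρ p0 = p ∧ ρ u0 = u ∧ ∀ c, ρ (algebraMap ℂ Lam c) = algebraMap ℂ L c := by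
  obtain ⟨ρ, h1, h2⟩ := exists_L0 p
  exact ⟨eval₂RingHom ρ u, (Polynomial.eval₂_C _ _).trans h1, eval₂_X _ _, fun c => (Polynomial.eval₂_C _ _).trans (h2 c)⟩

theorem u0_nsq (a c : Lam) (h : u0 ^ 3 * a ^ 2 + c ^ 2 = 0) : a = 0 := by
  by_contra ha
  have key : ∀ a c : L0[X], a ≠ 0 → X ^ 3 * a ^ 2 + c ^ 2 = 0 → False := fun a c ha h => by
    have := congrArg natDegree (eq_neg_of_add_eq_zero_left h)
    rw [natDegree_neg, natDegree_mul (pow_ne_zero _ X_ne_zero) (pow_ne_zero _ ha), natDegree_pow,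
      natDegree_pow, natDegree_pow, natDegree_X] at this
    omega
  exact key a c ha h

theorem u0_ne : u0 ≠ 0 := (X_ne_zero : (X : L0[X]) ≠ 0)

abbrev TT := Lam[X][X]
noncomputable instance : CommRing TT := Polynomial.commRing

noncomputable def uT : TT := Polynomial.C (Polynomial.C u0)
noncomputable def pT : TT := Polynomial.C (Polynomial.C (p0 : Lam))
noncomputable def pI : TT := Polynomial.C (Polynomial.C (p0⁻¹ : Lamˣ))
noncomputable def σT : TT := Polynomial.C X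

theorem pT_pI : pT * pI = 1 := by
  rw [pT, pI, ← map_mul, ← map_mul]; simp

theorem exists_psi (hε : ε * ε = 1) (hb : b ≠ 0) (m : ℤ) :
    ∃ ψ : Q d b ε m 0 →ₐ[ℂ] TT, Function.Injective ψ ∧ ψ (gen d b ε m 0 0) = uT ∧
      ψ (gen d b ε m 0 1) = pT ∧ ψ (gen d b ε m 0 3) = X ∧ ψ (zz d b ε m) = σT * X ∧
      ψ (yy d b ε m) = σT + σT ^ 2 * X := by
  have hq : pT ^ (d + 1) * pI ^ (d + 1) = 1 := by rw [← mul_pow, pT_pI, one_pow]
  set s : TT := σT + σT ^ 2 * X - X * ((m : TT) * X - (ε : TT) * uT ^ b) with hs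
  obtain ⟨ψ, h0, h1, h2, h3, hF, hJ⟩ := exists_lift' (d := d) (b := b) (ε := ε) (m := m) (l := 0)
    uT pT s X (pI ^ (d + 1) * ((m : TT) * X - s ^ 2 - (ε : TT) * uT ^ b)) (pI ^ (d + 1) * (σT * X - s * X))
    (by linear_combination -((m : TT) * X - s ^ 2 - (ε : TT) * uT ^ b) * hq)
    (by
      rw [Int.cast_zero]
      have : X ^ 2 * ((m : TT) * X - s ^ 2 - (ε : TT) * uT ^ b) - (1 + 2 * s * X) * (σT * X - s * X) -
        (σT * X - s * X) ^ 2 = 0 := by rw [hs]; ring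
      linear_combination pI ^ (d + 1) * this - pI ^ (d + 1) * (σT * X - s * X) ^ 2 * hq)
  have hz : ψ (zz d b ε m) = σT * X := by
    rw [zz, map_add, map_mul, map_mul, map_pow, h1, h2, h3, hJ]
    linear_combination (σT * X - s * X) * hq
  have hy : ψ (yy d b ε m) = σT + σT ^ 2 * X := by
    simp only [yy, map_add, map_mul, map_pow, map_sub, map_intCast, h0, h2, h3, hs]; ring
  refine ⟨ψ, ?_, h0, h1, h3, hz, hy⟩
  let L := Localization.Away (gen d b ε m 0 1 * gen d b ε m 0 3)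
  have hu := IsLocalization.Away.algebraMap_isUnit (S := L) (gen d b ε m 0 1 * gen d b ε m 0 3)
  rw [map_mul] at hu
  obtain ⟨up, hp⟩ := isUnit_of_mul_isUnit_left hu
  obtain ⟨ux, hx⟩ := isUnit_of_mul_isUnit_right hu
  obtain ⟨ρ₀, hρ, hρu, hρ'⟩ := exists_Lam up (algebraMap (Q d b ε m 0) L (gen d b ε m 0 0))
  let ρ : TT →+* L := eval₂RingHom (eval₂RingHom ρ₀
    (algebraMap (Q d b ε m 0) L (zz d b ε m) * (ux⁻¹ : Lˣ))) ux
  have r0 : ρ uT = algebraMap (Q d b ε m 0) L (gen d b ε m 0 0) := by simp [ρ, uT, hρu]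
  have r1 : ρ pT = up := by simp [ρ, pT, hρ]
  have r2 : ρ pI = (up⁻¹ : Lˣ) :=
    (Units.inv_eq_of_mul_eq_one_right (by rw [← r1, ← map_mul, pT_pI, map_one])).symm
  have r3 : ρ X = ux := by simp [ρ]
  have r4 : ρ σT = algebraMap (Q d b ε m 0) L (zz d b ε m) * (ux⁻¹ : Lˣ) := by simp [ρ, σT]
  have i1 : (ux : L) * (ux⁻¹ : Lˣ) = 1 := ux.mul_inv
  have i2 : (up : L) ^ (d + 1) * (up⁻¹ : Lˣ) ^ (d + 1) = 1 := by
    rw [← mul_pow, up.mul_inv, one_pow]
  have r5 : ρ s = algebraMap (Q d b ε m 0) L (gen d b ε m 0 2) := by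
    have e := congrArg (algebraMap (Q d b ε m 0) L) (xy_eq (d := d) (b := b) (ε := ε) m)
    simp only [yy, map_add, map_mul, map_pow, map_sub, map_intCast, map_one] at e
    simp only [hs, map_add, map_mul, map_pow, map_sub, map_intCast, r0, r3, r4]
    rw [← hx] at e
    linear_combination (-(ux⁻¹ : Lˣ) : L) * e + (algebraMap (Q d b ε m 0) L (gen d b ε m 0 2) + ux * (m * ux - ε *
      algebraMap (Q d b ε m 0) L (gen d b ε m 0 0) ^ b) + algebraMap (Q d b ε m 0) L (zz d b ε m) ^ 2 * (ux⁻¹ : Lˣ)) * i1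
  have key : ∀ a, ρ (ψ a) = algebraMap (Q d b ε m 0) L a := fun a => by
    induction a using Q_ind' with
    | hC c =>
      rw [AlgHom.commutes, ← IsScalarTower.algebraMap_apply]
      change ρ (Polynomial.C (Polynomial.C (algebraMap ℂ Lam c))) = _
      simp [ρ, hρ']
    | h0 => rw [h0, r0]
    | h1 => rw [h1, r1, hp]
    | h2 => rw [h2, r5]
    | h3 => rw [h3, r3, hx]
    | hF =>
      have e := congrArg (algebraMap (Q d b ε m 0) L) (gen_F (d := d) (b := b) (ε := ε) m 0)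
      simp only [map_mul, map_pow, map_sub, map_intCast] at e
      simp only [hF, map_mul, map_pow, map_sub, map_intCast, r0, r2, r3, r5]
      rw [← hx, ← hp] at e
      linear_combination (-((up⁻¹ : Lˣ) : L) ^ (d + 1)) * e + algebraMap (Q d b ε m 0) L (Ff (gen d b ε m 0)) * i2
    | hJ =>
      simp only [hJ, map_mul, map_pow, map_sub, map_intCast, r2, r3, r4, r5]
      have e : algebraMap (Q d b ε m 0) L (zz d b ε m) = algebraMap (Q d b ε m 0) L (gen d b ε m 0 2) * ux +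
          up ^ (d + 1) * algebraMap (Q d b ε m 0) L (Jf (gen d b ε m 0)) := by
        simp only [zz, map_add, map_mul, map_pow, hx, hp]
      linear_combination ((up⁻¹ : Lˣ) : L) ^ (d + 1) * e + algebraMap (Q d b ε m 0) L (Jf (gen d b ε m 0)) * i2 +
        ((up⁻¹ : Lˣ) : L) ^ (d + 1) * algebraMap (Q d b ε m 0) L (zz d b ε m) * i1
    | ha a b h1 h2 => simp only [map_add, h1, h2]
    | hm a b h1 h2 => simp only [map_mul, h1, h2]
  rw [injective_iff_map_eq_zero]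
  intro y hy
  have := key y
  rw [hy, map_zero, eq_comm, IsLocalization.map_eq_zero_iff (Submonoid.powers (gen d b ε m 0 1 * gen d b ε m 0 3))] at this
  obtain ⟨⟨_, n, rfl⟩, hn⟩ := this
  induction n with
  | zero => simpa using hn
  | succ n ih =>
    refine ih (nzd_gen hε hb m 0 (by decide) _ (nzd_gen hε hb m 2 (by decide) _ ?_))
    rw [← hn]; simp only [pow_succ]; change gen d b ε m 0 3 * (gen d b ε m 0 1 * _) = _; ring

theorem Q_domain (hε : ε * ε = 1) (hb : b ≠ 0) (m : ℤ) : IsDomain (Q d b ε m 0) := by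
  obtain ⟨ψ, h, -⟩ := exists_psi (d := d) hε hb m
  exact h.isDomain ψ.toRingHom

end

end Crest.Agent.H4.AF
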