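import Crest.Agent.H4.AF.A3

/-! The exponential map of a locally nilpotent derivation, and polynomial lemmas. -/

namespace Crest.Agent.H4.AF

open Polynomial

theorem poly_zero {K : Type*} [Field K] [CharZero K] {q : K[X]} (h : derivative q = 0)
    (h0 : q.eval 0 = 0) : q = 0 := by
  rw [eq_C_of_derivative_eq_zero h] at h0 ⊢
  simpa using h0

theorem exists_exp {G K : Type} [CommRing G] [Algebra ℂ G] [Field K] [CharZero K] (ι : G →+* K)
    {E : Derivation ℂ G G} (hL : LN E) :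
    ∃ φ : G →+* K[X], (∀ a, φ (E a) = derivative (φ a)) ∧ ∀ a, (φ a).eval 0 = ι a := by
  choose n hn using hL
  let f : G → K[X] := fun a => ∑ k ∈ Finset.range (n a), monomial k ((k.factorial : K)⁻¹ * ι (E^[k] a))
  have hf : ∀ a k, (f a).coeff k = (k.factorial : K)⁻¹ * ι (E^[k] a) := fun a k => by
    simp only [f, finset_sum_coeff, coeff_monomial, Finset.sum_ite_eq', Finset.mem_range]
    split_ifs with h
    · rfl
    · rw [iter_mono E (hn a) (not_lt.1 h)]; simp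
  have h1 : ∀ a, f (E a) = derivative (f a) := fun a => by
    ext k
    rw [coeff_derivative, hf, hf, Function.iterate_succ_apply, Nat.factorial_succ]
    have : (k.factorial : K) ≠ 0 := Nat.cast_ne_zero.2 k.factorial_ne_zero
    have : (k + 1 : K) ≠ 0 := by exact_mod_cast k.succ_ne_zero
    push_cast; field_simp
  have h2 : ∀ a, (f a).eval 0 = ι a := fun a => by rw [← coeff_zero_eq_eval_zero, hf]; simp
  have h3 : ∀ a b, f (a + b) = f a + f b := fun a b => by
    ext k; rw [coeff_add, hf, hf, hf, iter_add, map_add, mul_add]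
  have h0 : f 0 = 0 := by ext k; rw [hf, iter_zero]; simp
  have h4 : ∀ N i j a b, i + j ≤ N → E^[i] a = 0 → E^[j] b = 0 → f (a * b) = f a * f b := by
    intro N
    induction N with
    | zero =>
      intro i j a b h ha hb
      obtain rfl : i = 0 := by omega
      obtain rfl : a = 0 := ha
      simp [h0]
    | succ N ih =>
      intro i j a b h ha hb
      rcases i with _ | i
      · obtain rfl : a = 0 := ha
        simp [h0]
      rcases j with _ | j
      · obtain rfl : b = 0 := hb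
        simp [h0]
      refine sub_eq_zero.1 (poly_zero ?_ (by simp [h2]))
      rw [derivative_sub, ← h1, derivative_mul, ← h1, ← h1, E.leibniz, h3, smul_eq_mul, smul_eq_mul,
        ih (i + 1) j a (E b) (by omega) ha hb, ih (j + 1) i b (E a) (by omega) hb ha]
      ring
  have h5 : f 1 = 1 := sub_eq_zero.1 (poly_zero (by rw [derivative_sub, ← h1]; simp [h0])
    (by simp [h2]))
  exact ⟨⟨⟨⟨f, h5⟩, fun a b => h4 _ _ _ a b le_rfl (hn a) (hn b)⟩, h0, h3⟩, h1, h2⟩

section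
variable {K : Type*} [Field K] [CharZero K]

theorem abc' {a b c r : K[X]} (ha : a ≠ 0) (hb : b ≠ 0) (hc : c ≠ 0) (hab : IsCoprime a b)
    (h : a + b + c = 0) (hr : r ≠ 0) (n : ℕ) (hn : a * b * c ∣ r ^ n) :
    (a.natDegree + 1 ≤ r.natDegree ∧ b.natDegree + 1 ≤ r.natDegree ∧
      c.natDegree + 1 ≤ r.natDegree) ∨ a.natDegree = 0 ∧ b.natDegree = 0 ∧ c.natDegree = 0 := by
  classical
  have h1 := natDegree_le_of_dvd ((UniqueFactorizationMonoid.exists_dvd_pow_iff_radical_dvd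
    (mul_ne_zero (mul_ne_zero ha hb) hc)).1 ⟨n, hn⟩) hr
  rcases Polynomial.abc ha hb hc hab h with h | h
  · left; omega
  · exact Or.inr ⟨natDegree_eq_zero_of_derivative_eq_zero h.1,
      natDegree_eq_zero_of_derivative_eq_zero h.2.1, natDegree_eq_zero_of_derivative_eq_zero h.2.2⟩

theorem coprime_of_sum {a b : K[X]} {c : K} (hc : c ≠ 0) (h : a + b = C c) : IsCoprime a b :=
  ⟨C c⁻¹, C c⁻¹, by rw [← mul_add, h, ← map_mul, inv_mul_cancel₀ hc, map_one]⟩

theorem polyA {α γ u : K[X]} {e c : K} {b : ℕ} (hb : 2 ≤ b) (hα : α ≠ 0) (hγ : γ ≠ 0)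
    (hu : u ≠ 0) (he : e ≠ 0) (hc : c ≠ 0) (h : γ ^ 2 + C e * α ^ 2 * u ^ b = C c) :
    α.natDegree = 0 ∧ γ.natDegree = 0 ∧ u.natDegree = 0 := by
  have he' : (C e : K[X]) ≠ 0 := C_ne_zero.2 he
  have := abc' (r := γ * α * u) (pow_ne_zero 2 hγ)
    (mul_ne_zero (mul_ne_zero he' (pow_ne_zero 2 hα)) (pow_ne_zero b hu))
    (neg_ne_zero.2 (C_ne_zero.2 hc)) (coprime_of_sum hc h) (by rw [h]; ring)
    (mul_ne_zero (mul_ne_zero hγ hα) hu) b (by
      obtain ⟨k, rfl⟩ := Nat.exists_eq_add_of_le hb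
      refine ⟨-C (e⁻¹ * c⁻¹) * γ ^ k * α ^ k, ?_⟩
      have : C e * C c * C (e⁻¹ * c⁻¹) = (1 : K[X]) := by
        rw [← map_mul, ← map_mul, ← C_1]; congr 1; field_simp
      linear_combination (-(γ * α * u) ^ (2 + k)) * this)
  rw [natDegree_mul (mul_ne_zero hγ hα) hu, natDegree_mul hγ hα,
    natDegree_mul (mul_ne_zero he' (pow_ne_zero 2 hα)) (pow_ne_zero b hu),
    natDegree_mul he' (pow_ne_zero 2 hα), natDegree_pow, natDegree_pow, natDegree_pow,
    natDegree_C] at this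
  have := Nat.mul_le_mul_right u.natDegree hb
  omega

theorem polyB {α γ u l : K[X]} {c : K} (hα : α ≠ 0) (hγ : γ ≠ 0) (hu : u ≠ 0) (hc : c ≠ 0)
    (hl : l.natDegree = 1) (hcop : IsCoprime α γ) (h : γ ^ 2 + α ^ 2 * u ^ 3 = C c * l ^ 2) :
    ∃ r : K, u.eval 0 ^ 3 + r ^ 2 = 0 := by
  have hl0 : l ≠ 0 := fun h => by simp [h] at hl
  have hc' : (C c : K[X]) ≠ 0 := C_ne_zero.2 hc
  have hirr : Irreducible l := irreducible_of_degree_eq_one (by
    rw [degree_eq_natDegree hl0, hl]; rfl)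
  have hcc : C c * C c⁻¹ = (1 : K[X]) := by rw [← map_mul, mul_inv_cancel₀ hc, map_one]
  by_cases hlγ : l ∣ γ
  · exfalso
    have h1 : l ∣ α ^ 2 * u ^ 3 := by
      rw [eq_sub_of_add_eq' h]
      exact dvd_sub (Dvd.dvd.mul_left (dvd_pow_self _ two_ne_zero) _) (dvd_pow hlγ two_ne_zero)
    rcases hirr.prime.dvd_or_dvd h1 with h2 | h2
    · exact hirr.not_isUnit (hcop.isUnit_of_dvd' (hirr.prime.dvd_of_dvd_pow h2) hlγ)
    obtain ⟨u, rfl⟩ := hirr.prime.dvd_of_dvd_pow h2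
    obtain ⟨γ, rfl⟩ := hlγ
    have hu := right_ne_zero_of_mul hu
    have hγ := right_ne_zero_of_mul hγ
    have h3 : γ ^ 2 + α ^ 2 * l * u ^ 3 = C c :=
      mul_left_cancel₀ (pow_ne_zero 2 hl0) (by linear_combination h)
    have := abc' (r := γ * α * l * u) (pow_ne_zero 2 hγ)
      (mul_ne_zero (mul_ne_zero (pow_ne_zero 2 hα) hl0) (pow_ne_zero 3 hu))
      (neg_ne_zero.2 hc') (coprime_of_sum hc h3) (by rw [h3]; ring)
      (mul_ne_zero (mul_ne_zero (mul_ne_zero hγ hα) hl0) hu) 3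
      ⟨-C c⁻¹ * γ * α * l ^ 2, by linear_combination (-(γ * α * l * u) ^ 3) * hcc⟩
    rw [natDegree_mul (mul_ne_zero (mul_ne_zero hγ hα) hl0) hu,
      natDegree_mul (mul_ne_zero hγ hα) hl0, natDegree_mul hγ hα,
      natDegree_mul (mul_ne_zero (pow_ne_zero 2 hα) hl0) (pow_ne_zero 3 hu),
      natDegree_mul (pow_ne_zero 2 hα) hl0, natDegree_pow, natDegree_pow, natDegree_pow] at this
    omega
  · have h1 : IsCoprime (γ ^ 2) (α ^ 2 * u ^ 3) := by
      obtain ⟨a, b, e⟩ := (hirr.coprime_iff_not_dvd.2 hlγ).pow (m := 2) (n := 2)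
      exact ⟨b + a * C c⁻¹, a * C c⁻¹, by
        linear_combination e + a * C c⁻¹ * h + a * l ^ 2 * hcc⟩
    have h2 := abc' (r := γ * α * l * u) (pow_ne_zero 2 hγ)
      (mul_ne_zero (pow_ne_zero 2 hα) (pow_ne_zero 3 hu))
      (neg_ne_zero.2 (mul_ne_zero hc' (pow_ne_zero 2 hl0))) h1 (by rw [h]; ring)
      (mul_ne_zero (mul_ne_zero (mul_ne_zero hγ hα) hl0) hu) 3
      ⟨-C c⁻¹ * γ * α * l, by linear_combination (-(γ * α * l * u) ^ 3) * hcc⟩
    rw [natDegree_mul (mul_ne_zero (mul_ne_zero hγ hα) hl0) hu,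
      natDegree_mul (mul_ne_zero hγ hα) hl0, natDegree_mul hγ hα,
      natDegree_mul (pow_ne_zero 2 hα) (pow_ne_zero 3 hu), natDegree_neg,
      natDegree_mul hc' (pow_ne_zero 2 hl0), natDegree_pow, natDegree_pow, natDegree_pow,
      natDegree_pow] at h2
    have h3 : u.natDegree = 0 := by omega
    obtain ⟨t, ht⟩ := exists_root_of_degree_eq_one (p := l) (by
      rw [degree_eq_natDegree hl0, hl]; rfl)
    rw [eq_C_of_natDegree_eq_zero h3] at h ⊢
    have e := congrArg (eval t) h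
    simp only [eval_add, eval_mul, eval_pow, eval_C, ht.eq_zero] at e
    have ha : α.eval t ≠ 0 := fun h0 => by
      obtain ⟨a, b, e'⟩ := hcop
      have e2 := congrArg (eval t) e'
      have : γ.eval t = 0 := by simpa [h0] using e
      simp [h0, this] at e2
    refine ⟨γ.eval t / α.eval t, ?_⟩
    rw [eval_C]; field_simp; linear_combination e

end

theorem sections {R : Type*} [CommRing R] [IsDomain R] {e U P s x F J α β γ δ : R}
    (he : e * e = 1) (hP : P ≠ 0) (h1 : P * F = -s ^ 2 - e * U)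
    (h2 : x ^ 2 * F - (1 + 2 * s * x) * J - P * J ^ 2 = 0) (hx : x = β * α)
    (hz : s * x + P * J = β * γ) (hz' : s * x + P * J + 1 = α * δ) (hy : s - e * x * U = γ * δ) :
    ∃ Φ, P * Φ = γ ^ 2 + e * α ^ 2 * U ∧ Φ ∣ F ∧ Φ ∣ J := by
  have e0 : α * δ - β * γ = 1 := by linear_combination hz - hz'
  have e1 : P * -J = (γ ^ 2 + e * α ^ 2 * U) * β ^ 2 := by
    have : P * -J = (s * x + P * J) ^ 2 + e * x ^ 2 * U := by linear_combination P * h2 - x ^ 2 * h1
    rw [this, hz, hx]; ring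
  have e2 : P * (s * J - x * F) = (γ ^ 2 + e * α ^ 2 * U) * (β * δ) := by
    have : P * (s * J - x * F) = (s * x + P * J) * (s - e * x * U) +
        e * x * (s * x + P * J + 1) * U := by linear_combination -x * h1
    rw [this, hz', hz, hy, hx]; ring
  have e3 : P * (-F * (1 + e * x ^ 2 * U) + e * U * J * (2 * s * x + 2 + P * J)) =
      (γ ^ 2 + e * α ^ 2 * U) * δ ^ 2 := by
    have : P * (-F * (1 + e * x ^ 2 * U) + e * U * J * (2 * s * x + 2 + P * J)) =
        (s - e * x * U) ^ 2 + e * (s * x + P * J + 1) ^ 2 * U := by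
      linear_combination -(1 + e * x ^ 2 * U) * h1
    rw [this, hz', hy]; ring
  set f := γ ^ 2 + e * α ^ 2 * U
  set F3 := -F * (1 + e * x ^ 2 * U) + e * U * J * (2 * s * x + 2 + P * J) with hF3
  set Φ := α ^ 2 * F3 - 2 * α * γ * (s * J - x * F) + γ ^ 2 * -J with hΦ
  have e4 : P * Φ = f := by
    rw [hΦ]
    linear_combination α ^ 2 * e3 - 2 * α * γ * e2 + γ ^ 2 * e1 + f * (α * δ - β * γ + 1) * e0
  have d1 : Φ ∣ -J := ⟨β ^ 2, mul_left_cancel₀ hP (by rw [e1, ← e4]; ring)⟩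
  have d2 : Φ ∣ s * J - x * F := ⟨β * δ, mul_left_cancel₀ hP (by rw [e2, ← e4]; ring)⟩
  have d3 : Φ ∣ F3 := ⟨δ ^ 2, mul_left_cancel₀ hP (by rw [e3, ← e4]; ring)⟩
  refine ⟨Φ, e4, ?_, dvd_neg.1 d1⟩
  have : F = -F3 + e * x * U * (s * J - x * F) + -J * (e * U * (-s * x - 2 - P * J)) := by
    rw [hF3]; ring
  rw [this]
  exact dvd_add (dvd_add (dvd_neg.2 d3) (d2.mul_left _)) (d1.mul_right _)

end Crest.Agent.H4.AF
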