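import Crest.Agent.H4.AF.A4

/-! No suitable locally nilpotent derivation on the doubly degenerate ring. -/

namespace Crest.Agent.H4.AF

open LaurentPolynomial
open Polynomial hiding C

variable {d b : ℕ} {ε : ℤ}

theorem exists_last {G : Type} [CommRing G] [Algebra ℂ G] {E : Derivation ℂ G G} (hL : LN E)
    {a : G} (ha : a ≠ 0) : ∃ n, E^[n] a ≠ 0 ∧ E (E^[n] a) = 0 := by
  obtain ⟨n, hn⟩ := hL a
  induction n with
  | zero => exact absurd hn ha
  | succ n ih =>
    by_cases h : E^[n] a = 0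
    · exact ih h
    · exact ⟨n, h, by rwa [Function.iterate_succ_apply'] at hn⟩

theorem final_core (hε : ε * ε = 1) (hb : b ≠ 0) {E : Derivation ℂ (Q d b ε 0 0) (Q d b ε 0 0)}
    (hL : LN E) (hu : E (gen d b ε 0 0 0) = 0) (hp : E (gen d b ε 0 0 1) = 0)
    (hxz : gen d b ε 0 0 3 * E (zz d b ε 0) = zz d b ε 0 * E (gen d b ε 0 0 3)) : E = 0 := by
  obtain ⟨ψ, hψ, h0, h1, h3, hz, hy⟩ := exists_psi (d := d) hε hb 0
  set e := ψ (E (gen d b ε 0 0 3)) with he
  let U : Subalgebra ℂ (Q d b ε 0 0) :=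
    { carrier := {g | ψ (E g) = e * derivative (ψ g)}
      mul_mem' := fun {a c} ha hc => by
        simp only [Set.mem_setOf_eq] at ha hc ⊢
        rw [E.leibniz, map_mul ψ a c, derivative_mul, smul_eq_mul, smul_eq_mul, map_add, map_mul,
          map_mul, ha, hc]; ring
      add_mem' := fun {a c} ha hc => by
        simp only [Set.mem_setOf_eq] at ha hc ⊢
        simp only [map_add, ha, hc, mul_add]
      algebraMap_mem' := fun c => by
        simp only [Set.mem_setOf_eq, AlgHom.commutes, Derivation.map_algebraMap, map_zero]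
        rw [Polynomial.algebraMap_apply, derivative_C, mul_zero] }
  have mem : ∀ g, g ∈ U ↔ ψ (E g) = e * derivative (ψ g) := fun _ => Iff.rfl
  have canc : ∀ a g, a ∈ U → ψ a ≠ 0 → a * g ∈ U → g ∈ U := fun a g ha h0 hg => by
    rw [mem] at ha hg ⊢
    rw [E.leibniz, map_mul ψ a g, derivative_mul, smul_eq_mul, smul_eq_mul, map_add, map_mul,
      map_mul, ha] at hg
    exact mul_left_cancel₀ h0 (by linear_combination hg)
  have pne : pT ≠ 0 := left_ne_zero_of_mul_eq_one pT_pI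
  have mu : gen d b ε 0 0 0 ∈ U := by rw [mem, hu, h0, uT, derivative_C]; simp
  have mp : gen d b ε 0 0 1 ∈ U := by rw [mem, hp, h1, pT, derivative_C]; simp
  have mx : gen d b ε 0 0 3 ∈ U := by rw [mem, h3]; simp [he]
  have mz : zz d b ε 0 ∈ U := by
    have := congrArg ψ hxz
    rw [map_mul, map_mul, h3, hz, ← he] at this
    rw [mem, hz, σT, derivative_C_mul_X]
    exact mul_left_cancel₀ X_ne_zero (by rw [this, σT]; ring)
  have my : yy d b ε 0 ∈ U := canc _ _ mx (h3 ▸ X_ne_zero) (by rw [xy_eq]; smem)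
  have hs : gen d b ε 0 0 2 = yy d b ε 0 - gen d b ε 0 0 3 * ((0 : ℤ) * gen d b ε 0 0 3 -
    ε * gen d b ε 0 0 0 ^ b) := by rw [yy]; ring
  have hJ : gen d b ε 0 0 1 ^ (d + 1) * Jf (gen d b ε 0 0) = zz d b ε 0 -
    gen d b ε 0 0 2 * gen d b ε 0 0 3 := by rw [zz]; ring
  have ms : gen d b ε 0 0 2 ∈ U := by rw [hs]; smem
  have hP : ψ (gen d b ε 0 0 1 ^ (d + 1)) ≠ 0 := by rw [map_pow, h1]; exact pow_ne_zero _ pne
  have key : ∀ g, ψ (E g) = e * derivative (ψ g) :=
    Q_ind' (p := fun g => g ∈ U) U.algebraMap_mem mu mp ms mx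
      (canc _ _ (pow_mem mp _) hP (by rw [gen_F]; smem))
      (canc _ _ (pow_mem mp _) hP (by rw [hJ]; smem)) (fun _ _ => add_mem) fun _ _ => mul_mem
  by_contra hE
  have he0 : e ≠ 0 := fun h => hE (Derivation.ext fun g => hψ (by rw [key, h]; simp))
  obtain ⟨n, ha, ha'⟩ := exists_last hL (a := gen d b ε 0 0 3) fun h =>
    X_ne_zero (R := Lam[X]) (by rw [← h3, h, map_zero])
  have hb' : ∀ n, ψ (E^[n] (zz d b ε 0)) = σT * ψ (E^[n] (gen d b ε 0 0 3)) := fun n => by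
    induction n with
    | zero => simp [hz, h3]
    | succ n ih =>
      rw [Function.iterate_succ_apply', Function.iterate_succ_apply', key, key, ih, σT,
        derivative_C_mul]; ring
  have hc := key (E^[n] (gen d b ε 0 0 3))
  rw [ha', map_zero, eq_comm, mul_eq_zero] at hc
  have hc' := eq_C_of_derivative_eq_zero (hc.resolve_left he0)
  set a' := (ψ (E^[n] (gen d b ε 0 0 3))).coeff 0
  let ρ : TT →+* Lam[T;T⁻¹] := eval₂RingHom toLaurent (-T (-1))
  let χ : Lam[X] →+* Lam[T;T⁻¹] := eval₂RingHom C (T (-1))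
  let V : Subring Lam[T;T⁻¹] := χ.range
  have vC : ∀ c, C c ∈ V := fun c => ⟨Polynomial.C c, by simp [χ]⟩
  have vT : T (-1) ∈ V := ⟨X, by simp [χ]⟩
  have i1 : (T 1 : Lam[T;T⁻¹]) * T (-1) = 1 := by rw [← T_add]; simp
  have r0 : ρ (ψ (gen d b ε 0 0 0)) ∈ V := by simpa [h0, ρ, uT] using vC _
  have r1 : ρ (ψ (gen d b ε 0 0 1)) ∈ V := by simpa [h1, ρ, pT] using vC _
  have r1' : ρ pI ∈ V := by simpa [ρ, pI] using vC _
  have r3 : ρ (ψ (gen d b ε 0 0 3)) ∈ V := by simpa [h3, ρ] using vT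
  have rz : ρ (ψ (zz d b ε 0)) ∈ V := by
    have : ρ (ψ (zz d b ε 0)) = -1 := by simp [hz, ρ, σT, i1]
    rw [this]; smem
  have ry : ρ (ψ (yy d b ε 0)) ∈ V := by
    have : ρ (ψ (yy d b ε 0)) = 0 := by
      simp only [hy, ρ, σT, map_add, map_mul, map_pow, coe_eval₂RingHom, Polynomial.eval₂_C,
        eval₂_X, toLaurent_X]
      linear_combination (-T 1) * i1
    rw [this]; smem
  have r2 : ρ (ψ (gen d b ε 0 0 2)) ∈ V := by
    rw [hs]; simp only [map_sub, map_mul, map_pow, map_intCast]; smem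
  have canc' : ∀ g, ρ (ψ (gen d b ε 0 0 1 ^ (d + 1) * g)) ∈ V → ρ (ψ g) ∈ V := fun g hg => by
    have : ψ g = pI ^ (d + 1) * ψ (gen d b ε 0 0 1 ^ (d + 1) * g) := by
      rw [map_mul, map_pow, h1, ← mul_assoc, ← mul_pow, mul_comm pI, pT_pI, one_pow, one_mul]
    rw [this, map_mul, map_pow]; smem
  have hV : ∀ g, ρ (ψ g) ∈ V := Q_ind' (p := fun g => ρ (ψ g) ∈ V)
    (fun c => by
      rw [AlgHom.commutes]
      change ρ (Polynomial.C (Polynomial.C (algebraMap ℂ Lam c))) ∈ V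
      simpa [ρ] using vC _) r0 r1 r2 r3
    (canc' _ (by rw [gen_F]; simp only [map_sub, map_mul, map_pow, map_intCast]; smem))
    (canc' _ (by rw [hJ]; simp only [map_sub, map_mul]; smem))
    (fun _ _ h1 h2 => by simp only [map_add]; smem) fun _ _ h1 h2 => by simp only [map_mul]; smem
  have tr : ∀ B : Lam[X], ∃ c, trunc (χ B) = Polynomial.C c := by
    intro B
    induction B using Polynomial.induction_on' with
    | add p q hp hq =>
      obtain ⟨c, hc⟩ := hp
      obtain ⟨c', hc'⟩ := hq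
      exact ⟨c + c', by rw [map_add, map_add, hc, hc', map_add]⟩
    | monomial n a =>
      simp only [χ, coe_eval₂RingHom, eval₂_monomial, T_pow, trunc_C_mul_T]
      split_ifs with h
      · obtain rfl : n = 0 := by omega
        exact ⟨a, by simp⟩
      · exact ⟨0, by simp⟩
  obtain ⟨B, hB⟩ := hV (E^[n] (zz d b ε 0))
  obtain ⟨c, hc⟩ := tr B
  rw [hB, hb', hc', σT, ← map_mul] at hc
  simp only [ρ, coe_eval₂RingHom, Polynomial.eval₂_C, trunc_toLaurent] at hc
  have h5 : a' = 0 := by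
    ext k
    have := congrArg (fun q => q.coeff (k + 1)) hc
    simpa using this
  exact ha (hψ (by rw [hc', h5]; simp))

theorem final (hε : ε * ε = 1) (hb : 2 ≤ b) {E : Derivation ℂ (Q d b ε 0 0) (Q d b ε 0 0)}
    (hL : LN E) {a : Q d b ε 0 0} (ha : a ≠ 0) (hEa : E a = 0)
    (hm : a ∈ Ideal.span {gen d b ε 0 0 4, gen d b ε 0 0 5})
    (hp : E (gen d b ε 0 0 1) = 0 ∨ (d = 1 ∧ b = 3 ∧ ε = 1 ∧ E (E (gen d b ε 0 0 1)) = 0)) :
    E = 0 := by
  have hb0 : b ≠ 0 := by omega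
  haveI := Q_domain (d := d) hε hb0 0
  obtain ⟨ψ, hψ, h0, h1, h3, hz, hy⟩ := exists_psi (d := d) hε hb0 0
  obtain ⟨K, _, _, _, _⟩ : ∃ (K : Type) (_ : Field K) (_ : Algebra (Q d b ε 0 0) K),
      IsFractionRing (Q d b ε 0 0) K ∧ CharZero K :=
    ⟨FractionRing (Q d b ε 0 0), inferInstance, inferInstance, inferInstance,
      charZero_of_injective_algebraMap (algebraMap ℂ _).injective⟩
  obtain ⟨φ, hφ, hφ0⟩ := exists_exp (algebraMap _ K) hL
  have inj : ∀ g, φ g = 0 → g = 0 := fun g h => IsFractionRing.injective _ K (by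
    rw [← hφ0, h]; simp)
  have ne : ∀ g, ψ g ≠ 0 → φ g ≠ 0 := fun g h h' => h (by rw [inj g h', map_zero])
  have nu := ne _ (h0.trans_ne (C_ne_zero.2 (C_ne_zero.2 u0_ne)))
  have np := ne _ (h1.trans_ne (left_ne_zero_of_mul_eq_one pT_pI))
  have nx := ne _ (h3.trans_ne X_ne_zero)
  have nz := ne _ (hz.trans_ne (mul_ne_zero (C_ne_zero.2 X_ne_zero) X_ne_zero))
  have exy := congrArg φ (xy_eq (d := d) (b := b) (ε := ε) 0)
  rw [map_mul, map_mul, map_add, map_one] at exy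
  obtain ⟨β, α, ⟨γ, hγ⟩, ⟨δ, hδ⟩, hx⟩ := exists_dvd_and_dvd_of_dvd_mul ⟨_, exy.symm⟩
  have hy' : φ (yy d b ε 0) = γ * δ := mul_left_cancel₀ nx (by rw [exy, hδ, hγ, hx]; ring)
  have eF := congrArg φ (gen_F (d := d) (b := b) (ε := ε) 0 0)
  have eH := congrArg φ (gen_H (d := d) (b := b) (ε := ε) 0 0)
  simp only [map_mul, map_sub, map_add, map_pow, map_intCast, Int.cast_zero, zero_mul, map_one,
    map_ofNat, map_zero] at eF eH
  have ez : φ (zz d b ε 0) = φ (gen d b ε 0 0 2) * φ (gen d b ε 0 0 3) +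
    φ (gen d b ε 0 0 1) ^ (d + 1) * φ (Jf (gen d b ε 0 0)) := by simp [zz]
  obtain ⟨Φ, hΦ, dF, dJ⟩ := sections (e := (ε : K[X])) (U := φ (gen d b ε 0 0 0) ^ b)
    (P := φ (gen d b ε 0 0 1) ^ (d + 1)) (s := φ (gen d b ε 0 0 2)) (x := φ (gen d b ε 0 0 3))
    (F := φ (Ff (gen d b ε 0 0))) (J := φ (Jf (gen d b ε 0 0))) (α := α) (β := β) (γ := γ)
    (δ := δ) (by exact_mod_cast congrArg (Int.cast (R := K[X])) hε) (pow_ne_zero _ np)
    (by rw [eF]; ring) eH hx (ez ▸ hγ) (ez ▸ hδ) (by rw [← hy']; simp [yy]; ring)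
  have dΦ : Φ ∣ φ a := by
    obtain ⟨q₁, q₂, rfl⟩ := Ideal.mem_span_pair.1 hm
    rw [h_eq (gen d b ε 0 0), v_eq (gen d b ε 0 0)]
    simp only [map_add, map_mul, map_sub]
    exact dvd_add (Dvd.dvd.mul_left (dvd_sub (dF.mul_left _) (dJ.mul_left _)) _)
      (Dvd.dvd.mul_left (dvd_add (dF.mul_left _) (dJ.mul_left _)) _)
  have na : φ a ≠ 0 := fun h => ha (inj _ h)
  have hΦ0 : Φ.natDegree = 0 := by
    have := natDegree_le_of_dvd dΦ na
    rw [natDegree_eq_zero_of_derivative_eq_zero (p := φ a) (by rw [← hφ, hEa, map_zero])] at this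
    omega
  have nΦ : Φ.coeff 0 ≠ 0 := fun h => by
    rw [eq_C_of_natDegree_eq_zero hΦ0, h, map_zero, zero_dvd_iff] at dΦ
    exact na dΦ
  have nα : α ≠ 0 := right_ne_zero_of_mul (hx ▸ nx)
  have nγ : γ ≠ 0 := right_ne_zero_of_mul (hγ ▸ nz)
  by_cases hp0 : E (gen d b ε 0 0 1) = 0
  · have hpc := eq_C_of_derivative_eq_zero (p := φ (gen d b ε 0 0 1)) (by rw [← hφ, hp0, map_zero])
    obtain ⟨e1, e2, e3⟩ := polyA (e := (ε : K)) (c := (φ (gen d b ε 0 0 1)).coeff 0 ^ (d + 1) * Φ.coeff 0)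
      hb nα nγ nu (left_ne_zero_of_mul_eq_one (b := (ε : K))
        (by exact_mod_cast congrArg (Int.cast (R := K)) hε))
      (mul_ne_zero (pow_ne_zero _ fun h => np (by rw [hpc, h, map_zero])) nΦ)
      (by rw [map_mul, map_pow, ← hpc, ← eq_C_of_natDegree_eq_zero hΦ0, hΦ, map_intCast])
    refine final_core hε hb0 hL (inj _ ?_) hp0 (sub_eq_zero.1 (inj _ ?_))
    · rw [hφ, derivative_of_natDegree_zero e3]
    · rw [map_sub, map_mul, map_mul, hφ, hφ, hx, hγ, derivative_mul, derivative_mul,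
        derivative_of_natDegree_zero e1, derivative_of_natDegree_zero e2]; ring
  · obtain ⟨rfl, rfl, rfl, hp2⟩ := hp.resolve_left hp0
    exfalso
    have hl : (φ (gen 1 3 1 0 0 1)).natDegree = 1 := by
      have e1 : (φ (gen 1 3 1 0 0 1)).natDegree ≠ 0 := fun h =>
        hp0 (inj _ (by rw [hφ, derivative_of_natDegree_zero h]))
      have e2 := natDegree_eq_zero_of_derivative_eq_zero (p := derivative (φ (gen 1 3 1 0 0 1)))
        (by rw [← hφ, ← hφ, hp2, map_zero])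
      rw [natDegree_derivative] at e2
      omega
    obtain ⟨r, hr⟩ := polyB (u := φ (gen 1 3 1 0 0 0)) nα nγ nu nΦ hl
      ⟨δ, -β, by linear_combination hγ - hδ⟩
      (by rw [← eq_C_of_natDegree_eq_zero hΦ0]; simp at hΦ; linear_combination -hΦ)
    obtain ⟨g, g', hg', rfl⟩ := IsFractionRing.div_surjective (A := Q 1 3 1 0 0) r
    have hg'' := nonZeroDivisors.ne_zero hg'
    have e1 : gen 1 3 1 0 0 0 ^ 3 * g' ^ 2 + g ^ 2 = 0 := IsFractionRing.injective _ K (by
      have : algebraMap _ K g' ≠ 0 := fun h => hg'' (IsFractionRing.injective _ K (by simpa using h))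
      rw [hφ0, div_pow, add_div' _ _ _ (pow_ne_zero 2 this), div_eq_zero_iff] at hr
      simp only [map_add, map_mul, map_pow, map_zero]
      linear_combination hr.resolve_right (pow_ne_zero 2 this))
    have e2 := congrArg (fun q => leadingCoeff (leadingCoeff (ψ q)))
      (eq_neg_of_add_eq_zero_left e1)
    simp only [map_mul, map_pow, map_neg, h0, uT, leadingCoeff_mul, leadingCoeff_pow,
      leadingCoeff_C, leadingCoeff_neg] at e2
    have := u0_nsq _ _ (add_eq_zero_iff_eq_neg.2 e2)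
    rw [leadingCoeff_eq_zero, leadingCoeff_eq_zero] at this
    exact hg'' (hψ (by rw [this, map_zero]))

end Crest.Agent.H4.AF
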