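import Crest.Agent.H4.AF.A5

/-! The rings are not polynomial rings (with the given coordinate). -/

namespace Crest.Agent.H4.AF

open LaurentPolynomial
open Polynomial hiding C

theorem iter_mul {A : Type} [CommRing A] [Algebra ℂ A] (D : Derivation ℂ A A) :
    ∀ (N i j : ℕ) (a b : A), i + j ≤ N → D^[i] a = 0 → D^[j] b = 0 → D^[N] (a * b) = 0 := by
  intro N
  induction N with
  | zero =>
    intro i j a b h ha hb
    obtain rfl : i = 0 := by omega
    obtain rfl : a = 0 := ha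
    simp
  | succ N ih =>
    intro i j a b h ha hb
    rcases i with _ | i
    · obtain rfl : a = 0 := ha
      rw [zero_mul, iter_zero]
    rcases j with _ | j
    · obtain rfl : b = 0 := hb
      rw [mul_zero, iter_zero]
    rw [Function.iterate_succ_apply, D.leibniz, iter_add, smul_eq_mul, smul_eq_mul,
      ih (i + 1) j a (D b) (by omega) ha hb, ih (j + 1) i b (D a) (by omega) hb ha, add_zero]

/-- the locally nilpotent elements form a subalgebra -/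
def nilAlg {A : Type} [CommRing A] [Algebra ℂ A] (D : Derivation ℂ A A) : Subalgebra ℂ A where
  carrier := {a | ∃ n : ℕ, D^[n] a = 0}
  mul_mem' := fun ⟨i, hi⟩ ⟨j, hj⟩ => ⟨i + j, iter_mul D _ i j _ _ le_rfl hi hj⟩
  add_mem' := fun ⟨i, hi⟩ ⟨j, hj⟩ => ⟨i + j, by
    rw [iter_add, iter_mono D hi (by omega), iter_mono D hj (by omega), add_zero]⟩
  algebraMap_mem' := fun c => ⟨1, by simp⟩

theorem mv_top {σ : Type*} {U : Subalgebra ℂ (MvPolynomial σ ℂ)} (h : ∀ i, MvPolynomial.X i ∈ U)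
    (a : MvPolynomial σ ℂ) : a ∈ U := by
  induction a using MvPolynomial.induction_on with
  | C a => exact U.algebraMap_mem a
  | add p q hp hq => exact add_mem hp hq
  | mul_X p n hp => exact mul_mem hp (h n)

theorem pderiv_LN {n : ℕ} (j : Fin n) : LN (MvPolynomial.pderiv (R := ℂ) j) :=
  mv_top (U := nilAlg _) fun i => ⟨2, by
    simp only [Function.iterate_succ_apply, Function.iterate_zero_apply, MvPolynomial.pderiv_X,
      Pi.single_apply]
    split_ifs <;> simp⟩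

theorem exists_conj {A B : Type} [CommRing A] [Algebra ℂ A] [CommRing B] [Algebra ℂ B]
    (τ : A ≃ₐ[ℂ] B) (D : Derivation ℂ B B) : ∃ D' : Derivation ℂ A A, ∀ a, τ (D' a) = D (τ a) :=
  ⟨Derivation.mk' (τ.symm.toLinearMap ∘ₗ D.toLinearMap ∘ₗ τ.toLinearMap) fun a b => by
    simp, fun a => by simp⟩

variable {d b : ℕ} {ε : ℤ}

theorem positivity' {G ι : Type} [CommRing G] [Algebra ℂ G] (g : ι → G) (w : ι → ℤ) (I : Ideal G)
    (htop : ∀ a, a ∈ Algebra.adjoin ℂ (Set.range g)) (hw : ∀ i, w i ≤ 0 ∨ g i ∈ I)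
    (τ : G →ₐ[ℂ] G) (c : ℂˣ) (hc : (c : ℂ) = 2)
    (hτ : ∀ i, τ (g i) = ((c ^ w i : ℂˣ) : ℂ) • g i) {n : ℤ}
    (hn : 0 < n) {a : G} (ha : τ a = ((c ^ n : ℂˣ) : ℂ) • a) : a ∈ I := by
  let f : Module.End ℂ G := τ.toLinearMap
  have h1 : ∀ y ∈ Submonoid.closure (Set.range g),
      ∃ k : ℤ, τ y = ((c ^ k : ℂˣ) : ℂ) • y ∧ (k ≤ 0 ∨ y ∈ I) := by
    intro y hy
    induction hy using Submonoid.closure_induction with
    | mem x hx =>
      obtain ⟨i, rfl⟩ := hx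
      exact ⟨_, hτ i, hw i⟩
    | one => exact ⟨0, by simp, Or.inl le_rfl⟩
    | mul x y _ _ hx hy =>
      obtain ⟨k, e1, hk⟩ := hx
      obtain ⟨l, e2, hl⟩ := hy
      refine ⟨k + l, by rw [map_mul, e1, e2, zpow_add, Units.val_mul, smul_mul_smul_comm], ?_⟩
      rcases hk with hk | hk
      · rcases hl with hl | hl
        · exact Or.inl (by omega)
        · exact Or.inr (I.mul_mem_left _ hl)
      · exact Or.inr (I.mul_mem_right _ hk)
  have h2 : a ∈ (I.restrictScalars ℂ ⊓ f.eigenspace ((c ^ n : ℂˣ) : ℂ)) ⊔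
      ⨆ μ, ⨆ (_ : μ ≠ ((c ^ n : ℂˣ) : ℂ)), f.eigenspace μ := by
    have : a ∈ Subalgebra.toSubmodule (Algebra.adjoin ℂ (Set.range g)) := htop a
    rw [Algebra.adjoin_eq_span] at this
    refine Submodule.span_le.2 (fun g hg => ?_) this
    obtain ⟨k, e, hk⟩ := h1 g hg
    by_cases h : ((c ^ k : ℂˣ) : ℂ) = (c ^ n : ℂˣ)
    · refine Submodule.mem_sup_left ⟨hk.resolve_left fun hk => ?_,
        Module.End.mem_eigenspace_iff.2 (h ▸ e)⟩
      have := congrArg norm h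
      simp only [Units.val_zpow_eq_zpow_val, hc, norm_zpow, Complex.norm_ofNat] at this
      have := zpow_right_injective₀ (by norm_num) (by norm_num) this
      omega
    · exact Submodule.mem_sup_right (Submodule.mem_iSup_of_mem _ (Submodule.mem_iSup_of_mem h
        (Module.End.mem_eigenspace_iff.2 e)))
  obtain ⟨y, ⟨hy, hy'⟩, z, hz, e⟩ := Submodule.mem_sup.1 h2
  have h3 : z = 0 := Submodule.disjoint_def.1 (f.eigenspaces_iSupIndep ((c ^ n : ℂˣ) : ℂ)) z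
    (by rw [eq_sub_of_add_eq' e]; exact sub_mem (Module.End.mem_eigenspace_iff.2 ha) hy') hz
  rw [← e, h3, add_zero]
  exact hy

theorem positivity {m : ℤ} (τ : Q d b ε m 0 →ₐ[ℂ] Q d b ε m 0) (c : ℂˣ) (hc : (c : ℂ) = 2)
    (hτ : ∀ i, τ (gen d b ε m 0 i) = ((c ^ w1 d i : ℂˣ) : ℂ) • gen d b ε m 0 i) {n : ℤ}
    (hn : 0 < n) {a : Q d b ε m 0} (ha : τ a = ((c ^ n : ℂˣ) : ℂ) • a) :
    a ∈ Ideal.span {gen d b ε m 0 4, gen d b ε m 0 5} := by
  refine positivity' _ (w1 d) _ (Q_top fun i => Algebra.subset_adjoin ⟨i, rfl⟩) (fun i => ?_)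
    τ c hc hτ hn ha
  fin_cases i
  · simp [w1]
  · simp [w1]
  · simp [w1]
  · simp [w1]
  · exact Or.inr (Ideal.subset_span (Or.inl rfl))
  · exact Or.inr (Ideal.subset_span (Or.inr rfl))

theorem parity {τ : Q 1 b ε 0 0 →ₐ[ℂ] Q 1 b ε 0 0}
    (hτ : ∀ i, τ (gen 1 b ε 0 0 i) = (((-1) ^ w1 1 i : ℂˣ) : ℂ) • gen 1 b ε 0 0 i)
    (hε : ε * ε = 1) (hb : b ≠ 0) {E : Derivation ℂ (Q 1 b ε 0 0) (Q 1 b ε 0 0)} (hL : LN E)
    {m : ℤ} (hE : ∀ g, E (τ g) = (((-1) ^ m : ℂˣ) : ℂ) • τ (E g)) :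
    E (E (gen 1 b ε 0 0 1)) = 0 := by
  haveI := Q_domain (d := 1) hε hb 0
  have h1 : ∀ g, gen 1 b ε 0 0 1 ∣ τ g - g := fun g => by
    induction g using Q_ind with
    | hC c => simp
    | hg i =>
      rw [hτ]
      fin_cases i <;> simp [w1, zpow_ofNat, Algebra.smul_def]
    | ha x y hx hy => rw [map_add, add_sub_add_comm]; exact dvd_add hx hy
    | hm x y hx hy =>
      rw [map_mul, show τ x * τ y - x * y = (τ x - x) * τ y + x * (τ y - y) by ring]
      exact dvd_add (hx.mul_right _) (hy.mul_left _)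
  have h2 : τ (E (E (gen 1 b ε 0 0 1))) = -E (E (gen 1 b ε 0 0 1)) := by
    have e := congrArg E (hE (gen 1 b ε 0 0 1))
    rw [hτ, Derivation.map_smul, Derivation.map_smul, Derivation.map_smul, hE, smul_smul,
      ← Units.val_mul, ← mul_zpow] at e
    simpa [w1, Algebra.smul_def] using e.symm
  obtain ⟨q, hq⟩ := h1 (E (E (gen 1 b ε 0 0 1)))
  rw [h2] at hq
  obtain ⟨K, _, _, _, _⟩ : ∃ (K : Type) (_ : Field K) (_ : Algebra (Q 1 b ε 0 0) K),
      IsFractionRing (Q 1 b ε 0 0) K ∧ CharZero K :=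
    ⟨FractionRing (Q 1 b ε 0 0), inferInstance, inferInstance, inferInstance,
      charZero_of_injective_algebraMap (algebraMap ℂ _).injective⟩
  obtain ⟨φ, hφ, hφ0⟩ := exists_exp (algebraMap _ K) hL
  have inj : ∀ g, φ g = 0 → g = 0 := fun g h => IsFractionRing.injective _ K (by
    rw [← hφ0, h]; simp)
  apply inj
  have e := congrArg φ hq
  rw [map_sub, map_neg, map_mul, hφ, hφ] at e
  rw [hφ, hφ]
  set l := φ (gen 1 b ε 0 0 1)
  by_contra h0
  have h3 : l ∣ derivative (derivative l) :=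
    ⟨Polynomial.C (-1 / 2) * φ q, by
      have : (Polynomial.C (-1 / 2) : K[X]) * 2 = -1 := by
        rw [← map_ofNat Polynomial.C, ← map_mul]; norm_num
      linear_combination (Polynomial.C (-1 / 2)) * e + derivative (derivative l) * this⟩
  have h4 := natDegree_le_of_dvd h3 h0
  have h5 : l.natDegree ≠ 0 := fun h => h0 (by rw [derivative_of_natDegree_zero h]; simp)
  rw [natDegree_derivative, natDegree_derivative] at h4
  omega

instance (k j : ℕ) (l : ℤ) : Algebra.FiniteType ℂ (RR d b ε k j l) :=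
  Algebra.FiniteType.of_surjective (Ideal.Quotient.mkₐ ℂ (I7 d b ε k j l))
    Ideal.Quotient.mk_surjective

instance (k j : ℕ) (l : ℤ) : IsNoetherianRing (RR d b ε k j l) :=
  Algebra.FiniteType.isNoetherianRing ℂ _

theorem no_coords (hε : ε * ε = 1) (hb : 2 ≤ b) (τ : Q d b ε 1 1 ≃ₐ[ℂ] MvPolynomial (Fin 4) ℂ)
    (h : τ (gen d b ε 1 1 1) = MvPolynomial.X 0 ∨ (d = 1 ∧ b = 3 ∧ ε = 1)) : False := by
  have hb0 : b ≠ 0 := by omega
  haveI : IsDomain (Q d b ε 1 1) := τ.injective.isDomain τ.toRingEquiv.toRingHom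
  haveI := Q_domain (d := d) hε hb0 0
  haveI := Q_domain (d := d) hε hb0 1
  obtain ⟨S1, g1, c1⟩ := exists_rees (d := d) (b := b) (ε := ε) (k := 0) (j := 2 * d + 1) (l := 1)
    (m' := 1) (by simp) (by omega) (w1 d) 0 (d + 1) (reg_X hε hb0 1)
    fun T _ t f => by simpa using hs1 d b ε T t f 1 1
  obtain ⟨S2, g2, c2⟩ := exists_rees (d := d) (b := b) (ε := ε) (k := 3 * b) (j := 1) (l := 0)
    (m' := 0) (by simp [hb0]) (by omega) (w2 b) (2 * b) 0 (reg_X hε hb0 0)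
    fun T _ t f => by simpa using hs2 d b ε T t f
  choose n e he hπ hsc using fun i => S1.elem' (a := τ.symm (MvPolynomial.X i))
    fun h => MvPolynomial.X_ne_zero (R := ℂ) i (by simpa using congrArg τ h)
  obtain ⟨i, hi⟩ : ∃ i, 0 < n i := by
    by_contra hn
    push Not at hn
    have h1 : ∀ a, C (τ.symm a) ∈ S1.θ.range := fun a => by
      induction a using MvPolynomial.induction_on with
      | C a => exact ⟨algebraMap ℂ _ a, by
          rw [AlgHom.toRingHom_eq_coe, RingHom.coe_coe, AlgHom.commutes]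
          exact congrArg C (τ.symm.commutes a).symm⟩
      | add p q hp hq => rw [map_add, map_add]; exact add_mem hp hq
      | mul_X p i hp =>
        rw [map_mul, map_mul]
        obtain ⟨g, hg⟩ := S1.up ⟨_, he i⟩ (hn i)
        exact mul_mem hp ⟨g, by simpa using hg⟩
    obtain ⟨g, hg⟩ := h1 (τ (gen d b ε 1 1 5))
    obtain ⟨v, hv, hv'⟩ := g1 5
    obtain ⟨φ, hφ⟩ := Q_nontriv (d := d) (ε := ε) 1 0 hb0
    have : S1.π v = 0 := (S1.ker _).2 ⟨S1.t ^ d * g, S1.θ_inj (by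
      rw [← mul_assoc, ← pow_succ', map_mul, S1.θ_pow, hv]
      simp only [AlgHom.toRingHom_eq_coe, RingHom.coe_coe, AlgEquiv.symm_apply_apply] at hg
      rw [hg]; simp [w1])⟩
    rw [← hv', this] at hφ
    simp at hφ
  obtain ⟨j, hj0, hji⟩ : ∃ j : Fin 4, j ≠ 0 ∧ j ≠ i :=
    (by decide : ∀ i : Fin 4, ∃ j : Fin 4, j ≠ 0 ∧ j ≠ i) i
  obtain ⟨D, hD⟩ := exists_conj τ (MvPolynomial.pderiv j)
  have hD0 : D ≠ 0 := fun h => by
    have := hD (τ.symm (MvPolynomial.X j))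
    simp [h] at this
  have hDL : LN D := fun a => by
    obtain ⟨k, hk⟩ := pderiv_LN j (τ a)
    exact ⟨k, τ.injective (by
      rw [(Function.Semiconj.iterate_right (f := τ) hD k) a, hk, map_zero])⟩
  obtain ⟨m1, E1, hE1, hL1, k1, s1⟩ := S1.degen' hD0 hDL
  obtain ⟨m2, E2, hE2, hL2, k2, s2⟩ := S2.degen' hE1 hL1
  obtain ⟨n', e', he', hπ', hsc'⟩ := S2.elem' (hπ i)
  have a1 : E1 (S1.π (e i)) = 0 := k1 _ (by
    rw [he, lap_T_mul, lap_C, τ.injective (a₁ := D _) (a₂ := 0) (by rw [hD]; simp [hji.symm])]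
    simp)
  have a2 : E2 (S2.π e') = 0 := k2 _ (by rw [he', lap_T_mul, lap_C, a1]; simp)
  have sc : ∀ c : ℂˣ, ∃ τ' : Q d b ε 0 0 →ₐ[ℂ] Q d b ε 0 0,
      (∀ i, τ' (gen d b ε 0 0 i) = ((c ^ w1 d i : ℂˣ) : ℂ) • gen d b ε 0 0 i) ∧
      τ' (S2.π e') = ((c ^ n i : ℂˣ) : ℂ) • S2.π e' ∧
      ∀ g, E2 (τ' g) = ((c ^ (-m1) : ℂˣ) : ℂ) • τ' (E2 g) := fun c => by
    obtain ⟨σ, hσ⟩ := exists_scal (d := d) (b := b) (ε := ε) 1 c
    obtain ⟨σ', hσ'⟩ := exists_scal (d := d) (b := b) (ε := ε) 0 c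
    have C1 := c1 (fun _ => 1) c (AlgHom.id ℂ _) σ (by simp) (by simpa using hσ)
    have C2 := c2 (fun i => (c ^ w1 d i : ℂˣ)) 1 σ σ' hσ (by simpa using hσ')
    refine ⟨σ', hσ', ?_, fun g => ?_⟩
    · simpa using hsc' _ _ _ _ C2 (hsc i _ _ _ 1 C1 (by simp))
    · simpa using s2 _ _ _ _ C2 (s1 _ _ _ 1 C1 (by simp)) g
  obtain ⟨τ2, t1, t2, -⟩ := sc (Units.mk0 2 two_ne_zero)
  refine hE2 (final hε hb hL2 hπ' a2 (positivity τ2 _ rfl t1 hi t2) ?_)
  rcases h with h | ⟨rfl, rfl, rfl⟩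
  · left
    obtain ⟨p1, hp1, hp1'⟩ := g1 1
    obtain ⟨p2, hp2, hp2'⟩ := g2 1
    rw [← hp2']
    refine k2 _ ?_
    rw [hp2, lap_T_mul, lap_C, ← hp1', k1 _ ?_]
    · simp
    rw [hp1, lap_T_mul, lap_C, τ.injective (a₁ := D _) (a₂ := 0) (by rw [hD, h]; simp [hj0.symm])]
    simp
  · obtain ⟨τ', t1, -, t3⟩ := sc (-1)
    exact Or.inr ⟨rfl, rfl, rfl, parity t1 hε hb0 hL2 t3⟩

end Crest.Agent.H4.AF
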