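import Crest.Agent.H4.AF.A6

/-! The stable isomorphism for the cancellation example. -/

namespace Crest.Agent.H4.AF

open Polynomial nonZeroDivisors

theorem inj_of_gen {n : ℕ} {B K : Type} [CommRing B] [Algebra ℂ B] [Field K] [Algebra ℂ K]
    [Algebra (MvPolynomial (Fin n) ℂ) K] [IsScalarTower ℂ (MvPolynomial (Fin n) ℂ) K]
    [IsFractionRing (MvPolynomial (Fin n) ℂ) K]
    (φ : MvPolynomial (Fin n) ℂ →ₐ[ℂ] B) (hφ : Function.Surjective φ) (ψ : B →ₐ[ℂ] K)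
    (h : ∀ i, ∃ b, ψ b = algebraMap (MvPolynomial (Fin n) ℂ) K (MvPolynomial.X i)) :
    Function.Injective φ := by
  set g : Fin n → K := fun i => ψ (φ (MvPolynomial.X i)) with hg
  have e : ψ.comp φ = MvPolynomial.aeval g := MvPolynomial.algHom_ext fun i => by simp [hg]
  have h1 : ∀ a, algebraMap (MvPolynomial (Fin n) ℂ) K a ∈ Algebra.adjoin ℂ (Set.range g) :=
    mv_top (U := (Algebra.adjoin ℂ (Set.range g)).comap (IsScalarTower.toAlgHom ℂ _ K)) fun i => by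
      obtain ⟨b, hb⟩ := h i
      obtain ⟨q, rfl⟩ := hφ b
      rw [Algebra.adjoin_range_eq_range_aeval, ← e]
      exact ⟨q, hb⟩
  haveI := ZL.isFrac_of (Algebra.adjoin ℂ (Set.range g)) fun c => by
    obtain ⟨a, b, hb, rfl⟩ := IsFractionRing.div_surjective (A := MvPolynomial (Fin n) ℂ) c
    have hb0 := IsFractionRing.to_map_ne_zero_of_mem_nonZeroDivisors (K := K) hb
    exact ⟨_, h1 a, _, h1 b, hb0, div_mul_cancel₀ _ hb0⟩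
  haveI : Algebra.IsAlgebraic (Algebra.adjoin ℂ (Set.range g)) K :=
    IsLocalization.isAlgebraic K (Algebra.adjoin ℂ (Set.range g))⁰
  haveI : Algebra.IsAlgebraic (MvPolynomial (Fin n) ℂ) K :=
    IsLocalization.isAlgebraic K (MvPolynomial (Fin n) ℂ)⁰
  have h2 := trdeg_add_eq ℂ (MvPolynomial (Fin n) ℂ) (A := K)
  rw [trdeg_eq_zero (R := MvPolynomial (Fin n) ℂ) (A := K), add_zero,
    MvPolynomial.trdeg_of_isDomain] at h2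
  have h3 := (Algebra.IsAlgebraic.isTranscendenceBasis_of_lift_le_trdeg_of_finite ℂ g
    (by rw [← h2]; simp)).1
  rw [AlgebraicIndependent, ← e] at h3
  exact Function.Injective.of_comp (f := ψ) h3

section
variable {V : Type} [CommRing V] [Algebra ℂ V]

theorem shear (p a v e0 e1 e2 : V) : ∃ h3 v3 N : V,
    h3 = a + p ^ 2 * (e0 * v ^ 2 + e1 * (v + a) ^ 2 + e2 * (v - a) ^ 2) + p ^ 4 * N ∧
    ∀ U : Subalgebra ℂ V, p ∈ U → e0 ∈ U → e1 ∈ U → e2 ∈ U → h3 ∈ U → v3 ∈ U →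
      a ∈ U ∧ v ∈ U ∧ N ∈ U := by
  obtain ⟨l1, hl1⟩ : ∃ l1, l1 = v + a + p ^ 2 * (e0 * v ^ 2) := ⟨_, rfl⟩
  obtain ⟨l2, hl2⟩ : ∃ l2, l2 = v - a - p ^ 2 * (2 * e1 * l1 ^ 2 + e0 * v ^ 2) := ⟨_, rfl⟩
  refine ⟨a + p ^ 2 * (e0 * v ^ 2 + e1 * l1 ^ 2 + e2 * l2 ^ 2),
    v - p ^ 2 * e1 * l1 ^ 2 + p ^ 2 * e2 * l2 ^ 2,
    e1 * (e0 * v ^ 2) * (l1 + (v + a)) - e2 * (2 * e1 * l1 ^ 2 + e0 * v ^ 2) * (l2 + (v - a)),
    by linear_combination p ^ 2 * e1 * (l1 + (v + a)) * hl1 + p ^ 2 * e2 * (l2 + (v - a)) * hl2,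
    fun U hp h0 h1 h2 hh hv => ?_⟩
  have m2 : l2 ∈ U := by
    convert sub_mem hv hh using 1
    linear_combination hl2
  have m1 : l1 ∈ U := by
    convert sub_mem (add_mem hv hh) (show 2 * p ^ 2 * e2 * l2 ^ 2 ∈ U by smem) using 1
    linear_combination hl1
  have mv : v ∈ U := by
    convert add_mem hv (show p ^ 2 * e1 * l1 ^ 2 - p ^ 2 * e2 * l2 ^ 2 ∈ U by smem) using 1
    ring
  have ma : a ∈ U := by
    convert sub_mem hh (show p ^ 2 * (e0 * v ^ 2 + e1 * l1 ^ 2 + e2 * l2 ^ 2) ∈ U by smem) using 1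
    ring
  exact ⟨ma, mv, by smem⟩

theorem gen5' (p s ω F J w x : V) (hx : x = s ^ 2 + ω ^ 3 + p ^ 2 * F)
    (h : x ^ 2 * F - (1 + 2 * s * x) * J - p ^ 2 * J ^ 2 - p * ω + p ^ 3 * w = 0) :
    ∃ v3 w' : V, ∀ U : Subalgebra ℂ V, p ∈ U → s ∈ U → ω ∈ U → v3 ∈ U → w' ∈ U →
      F ∈ U ∧ J ∈ U ∧ w ∈ U := by
  obtain ⟨x0, hx0⟩ : ∃ x0, x0 = s ^ 2 + ω ^ 3 := ⟨_, rfl⟩
  obtain ⟨h0, hh0⟩ : ∃ h0, h0 = x0 ^ 2 * F - (1 + 2 * s * x0) * J := ⟨_, rfl⟩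
  obtain ⟨v, hv⟩ : ∃ v, v = (1 - 2 * s * x0) * F + 4 * s ^ 2 * J := ⟨_, rfl⟩
  have hF : F = 4 * s ^ 2 * h0 + (1 + 2 * s * x0) * v := by rw [hh0, hv]; ring
  have hJ : J = -(1 - 2 * s * x0) * h0 + x0 ^ 2 * v := by rw [hh0, hv]; ring
  obtain ⟨g2, hg2⟩ : ∃ g2, g2 = 32 * x0 * s ^ 4 + 8 * s ^ 3 * (1 - 2 * s * x0) -
    (1 - 2 * s * x0) ^ 2 := ⟨_, rfl⟩
  obtain ⟨g0, hg0⟩ : ∃ g0, g0 = 2 * x0 * (1 + 2 * s * x0) ^ 2 - 2 * s * (1 + 2 * s * x0) * x0 ^ 2 -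
    x0 ^ 4 := ⟨_, rfl⟩
  obtain ⟨g1, hg1⟩ : ∃ g1, g1 = 16 * x0 * s ^ 2 * (1 + 2 * s * x0) - 2 * s * (8 * s ^ 2 * x0 ^ 2 -
    1) + 2 * (1 - 2 * s * x0) * x0 ^ 2 := ⟨_, rfl⟩
  have hG : 2 * x0 * F ^ 2 - 2 * s * F * J - J ^ 2 = g0 * v ^ 2 + g1 * v * h0 + g2 * h0 ^ 2 := by
    rw [hF, hJ, hg0, hg1, hg2]; ring
  obtain ⟨q, hq, hq'⟩ : ∃ q : V, 4 * q = 1 ∧ ∀ U : Subalgebra ℂ V, q ∈ U :=
    ⟨algebraMap ℂ V (1 / 4), by rw [← map_ofNat (algebraMap ℂ V), ← map_mul]; norm_num,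
      fun U => U.algebraMap_mem _⟩
  obtain ⟨a, ha⟩ : ∃ a, a = h0 - p * ω := ⟨_, rfl⟩
  obtain ⟨h3, v3, N, e, hU⟩ := shear p a v (g0 - g2) (q * (2 * g2 + g1)) (q * (2 * g2 - g1))
  obtain ⟨M, hM⟩ : ∃ M, M = ω * (g1 * v + g2 * (2 * a + p * ω)) + p * F ^ 3 - p * N := ⟨_, rfl⟩
  have e3 : h3 = -p ^ 3 * (w + M) := by
    rw [← hx0] at hx
    have e1 : h0 = a + p * ω := by rw [ha]; ring
    rw [hx] at h
    rw [e, hM]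
    rw [e1] at hG hh0
    linear_combination h + hh0 - p ^ 2 * hG + p ^ 2 * (g2 * (v ^ 2 + a ^ 2) + g1 * v * a) * hq
  refine ⟨v3, w + M, fun U mp ms mω mv mw => ?_⟩
  have := hq' U
  have : x0 ∈ U := by rw [hx0]; smem
  have : g0 ∈ U := by rw [hg0]; smem
  have : g1 ∈ U := by rw [hg1]; smem
  have : g2 ∈ U := by rw [hg2]; smem
  obtain ⟨ma, mv, mN⟩ := hU U mp (by smem) (by smem) (by smem) (by rw [e3]; smem) mv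
  have : h0 ∈ U := by rw [eq_add_of_sub_eq ha.symm]; smem
  have : F ∈ U := by rw [hF]; smem
  have : M ∈ U := by rw [hM]; smem
  exact ⟨by assumption, by rw [hJ]; smem, by simpa using sub_mem mw this⟩

theorem gen5 (u p s x F J w : V) (h1 : p ^ 2 * F = x - s ^ 2 - u ^ 3)
    (h2 : x ^ 2 * F - (1 + 2 * s * x) * J - p ^ 2 * J ^ 2 = p * u) :
    ∃ g : Fin 5 → V, ∀ U : Subalgebra ℂ V, (∀ i, g i ∈ U) →
      u ∈ U ∧ p ∈ U ∧ s ∈ U ∧ x ∈ U ∧ F ∈ U ∧ J ∈ U ∧ w ∈ U := by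
  obtain ⟨ω, hω⟩ : ∃ ω, ω = u + p ^ 2 * w := ⟨_, rfl⟩
  obtain ⟨κ, hκ⟩ : ∃ κ, κ = w * (ω ^ 2 + ω * u + u ^ 2) := ⟨_, rfl⟩
  have hk : ω ^ 3 = u ^ 3 + p ^ 2 * κ := by rw [hκ, hω]; ring
  obtain ⟨s1, hs⟩ : ∃ s1, s1 = s + p ^ 2 * x * κ := ⟨_, rfl⟩
  obtain ⟨F1, hF⟩ : ∃ F1, F1 = F - κ * (1 + x * (s1 + s)) := ⟨_, rfl⟩
  obtain ⟨J1, hJ⟩ : ∃ J1, J1 = J - x ^ 2 * κ := ⟨_, rfl⟩
  have hx : x = s1 ^ 2 + ω ^ 3 + p ^ 2 * F1 := by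
    rw [hF, hk, hs]; linear_combination -h1
  obtain ⟨v3, w', hU⟩ := gen5' p s1 ω F1 J1 w x hx (by
    rw [hF, hJ, hs, hω]; linear_combination h2)
  refine ⟨![p, s1, ω, v3, w'], fun U h => ?_⟩
  have mp : p ∈ U := h 0
  have ms : s1 ∈ U := h 1
  have mω : ω ∈ U := h 2
  obtain ⟨mF, mJ, mw⟩ := hU U mp ms mω (h 3) (h 4)
  have : x ∈ U := by rw [hx]; smem
  have : u ∈ U := by rw [← sub_eq_of_eq_add hω]; smem
  have : κ ∈ U := by rw [hκ]; smem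
  have : s ∈ U := by rw [← sub_eq_of_eq_add hs]; smem
  refine ⟨by smem, mp, by smem, by smem, ?_, ?_, mw⟩
  · rw [eq_add_of_sub_eq hF.symm]; smem
  · rw [eq_add_of_sub_eq hJ.symm]; smem

end

theorem poly_top {d b : ℕ} {ε m l : ℤ} {U : Subalgebra ℂ (Q d b ε m l)[X]}
    (h : C (gen d b ε m l 0) ∈ U ∧ C (gen d b ε m l 1) ∈ U ∧ C (gen d b ε m l 2) ∈ U ∧
      C (gen d b ε m l 3) ∈ U ∧ C (Ff (gen d b ε m l)) ∈ U ∧ C (Jf (gen d b ε m l)) ∈ U ∧ X ∈ U)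
    (a : (Q d b ε m l)[X]) : a ∈ U := by
  obtain ⟨h0, h1, h2, h3, hF, hJ, hX⟩ := h
  have hC : ∀ a, C a ∈ U := Q_ind' (p := fun a => C a ∈ U) U.algebraMap_mem h0 h1 h2 h3 hF hJ
    (fun _ _ h h' => by rw [map_add]; smem) fun _ _ h h' => by rw [map_mul]; smem
  induction a using Polynomial.induction_on with
  | C a => exact hC a
  | add p q hp hq => smem
  | monomial n a h => have := hC a; smem

theorem stable_iso : Nonempty ((Q 1 3 1 1 1)[X] ≃ₐ[ℂ] MvPolynomial (Fin 5) ℂ) := by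
  have e1 := congrArg C (gen_F (d := 1) (b := 3) (ε := 1) 1 1)
  have e2 := congrArg C (gen_H (d := 1) (b := 3) (ε := 1) 1 1)
  simp only [Int.cast_one, one_mul, pow_one, map_mul, map_sub, map_add, map_pow, map_one,
    map_ofNat] at e1 e2
  obtain ⟨g, hg⟩ := gen5 _ _ _ _ _ _ X e1 e2
  have hs : Function.Surjective (MvPolynomial.aeval (R := ℂ) g) :=
    poly_top (U := (MvPolynomial.aeval (R := ℂ) g).range)
      (hg _ fun i => ⟨MvPolynomial.X i, by simp⟩)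
  obtain ⟨K, _, _, _, _, _⟩ : ∃ (K : Type) (_ : Field K) (_ : Algebra ℂ K)
      (_ : Algebra (MvPolynomial (Fin 5) ℂ) K), IsScalarTower ℂ (MvPolynomial (Fin 5) ℂ) K ∧
      IsFractionRing (MvPolynomial (Fin 5) ℂ) K :=
    ⟨FractionRing (MvPolynomial (Fin 5) ℂ), inferInstance, inferInstance, inferInstance,
      inferInstance, inferInstance⟩
  obtain ⟨t, ht⟩ : ∃ t : Fin 5 → K, ∀ i,
    t i = algebraMap (MvPolynomial (Fin 5) ℂ) K (MvPolynomial.X i) := ⟨_, fun _ => rfl⟩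
  have hp : t 0 ≠ 0 := by
    rw [ht]
    exact (map_ne_zero_iff _ (IsFractionRing.injective _ _)).2 (MvPolynomial.X_ne_zero _)
  obtain ⟨u, hu⟩ : ∃ u, t 0 ^ 3 * u = t 1 * t 2 - t 3 * (t 3 + 1) :=
    ⟨_, mul_div_cancel₀ _ (pow_ne_zero _ hp)⟩
  obtain ⟨s, hs'⟩ : ∃ s, s = t 2 - t 1 * (t 1 - u ^ 3) := ⟨_, rfl⟩
  obtain ⟨F, hF⟩ : ∃ F, t 0 ^ 2 * F = t 1 - s ^ 2 - u ^ 3 :=
    ⟨_, mul_div_cancel₀ _ (pow_ne_zero _ hp)⟩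
  obtain ⟨J, hJ⟩ : ∃ J, t 0 ^ 2 * J = t 3 - s * t 1 := ⟨_, mul_div_cancel₀ _ (pow_ne_zero _ hp)⟩
  obtain ⟨ψ, h0, h1, h2, h3, hF', hJ'⟩ := exists_lift' (d := 1) (b := 3) (ε := 1) (m := 1) (l := 1)
    u (t 0) s (t 1) F J (by simpa using hF.symm) (mul_left_cancel₀ (pow_ne_zero 2 hp) (by
      simp only [Int.cast_one, one_mul, pow_one]
      linear_combination t 1 ^ 2 * hF - (1 + s * t 1 + t 3 + t 0 ^ 2 * J) * hJ - hu + t 1 * hs'))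
  refine ⟨(AlgEquiv.ofBijective _ ⟨inj_of_gen _ hs (eval₂AlgHom ψ (t 4) fun _ => Commute.all _ _)
    fun i => ?_, hs⟩).symm⟩
  rw [← ht]
  fin_cases i
  · exact ⟨C (gen 1 3 1 1 1 1), by simp [h1]⟩
  · exact ⟨C (gen 1 3 1 1 1 3), by simp [h3]⟩
  · exact ⟨C (gen 1 3 1 1 1 2 + gen 1 3 1 1 1 3 * (gen 1 3 1 1 1 3 - gen 1 3 1 1 1 0 ^ 3)), by
      simp [h0, h2, h3, hs', eval₂_pow]⟩
  · exact ⟨C (gen 1 3 1 1 1 2 * gen 1 3 1 1 1 3 + gen 1 3 1 1 1 1 ^ 2 * Jf (gen 1 3 1 1 1)), by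
      simp [h1, h2, h3, hJ', hJ, eval₂_pow]⟩
  · exact ⟨X, by simp⟩

theorem cancellation : ∃ (A : Type) (_ : CommRing A) (_ : Algebra ℂ A),
    IsDomain A ∧ Nonempty (Polynomial A ≃ₐ[ℂ] MvPolynomial (Fin 5) ℂ) ∧
      IsEmpty (A ≃ₐ[ℂ] MvPolynomial (Fin 4) ℂ) := by
  obtain ⟨e⟩ := stable_iso
  exact ⟨Q 1 3 1 1 1, inferInstance, inferInstance, (e.injective.comp C_injective).isDomain
    (e.toRingEquiv.toRingHom.comp C), ⟨e⟩,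
    ⟨fun τ => no_coords (by norm_num) (by norm_num) τ (Or.inr ⟨rfl, rfl, rfl⟩)⟩⟩

end Crest.Agent.H4.AF
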